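import Vale.Agent.P272.K.QN.H327.Frame
import Mathlib.LinearAlgebra.Lagrange
import Mathlib.LinearAlgebra.Matrix.Rank

/-!
# P284 (helper395), C-STK: linear algebra of `adj (w + σ ρ)`
-/

open scoped ComplexConjugate ComplexOrder
open Matrix Finset

noncomputable section

namespace Vale.Agent.P284.H395

variable {n : ℕ}

/-- coefficient extraction for polynomials of degree at most `n` -/
lemma exists_cf (n s : ℕ) : ∃ c : Fin (n + 1) → ℝ, ∀ k, k ≤ n →
    ∑ j : Fin (n + 1), c j * ((j : ℕ) : ℝ) ^ k = if k = s then 1 else 0 := by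
  refine ⟨fun j => (Lagrange.basis (Finset.univ : Finset (Fin (n + 1)))
    (fun i => ((i : ℕ) : ℝ)) j).coeff s, fun k hk => ?_⟩
  have hinj : Set.InjOn (fun i : Fin (n + 1) => ((i : ℕ) : ℝ))
      (Finset.univ : Finset (Fin (n + 1))) := by
    intro i _ j _ h
    simp only at h
    exact Fin.ext (by exact_mod_cast h)
  have hdeg : (Polynomial.X ^ k : Polynomial ℝ).degree <
      (Finset.univ : Finset (Fin (n + 1))).card := by
    rw [Finset.card_univ, Fintype.card_fin, Polynomial.degree_X_pow]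
    exact_mod_cast Nat.lt_succ_of_le hk
  have h := Lagrange.eq_interpolate hinj hdeg
  have h2 := congrArg (fun p => Polynomial.coeff p s) h
  simp only [Lagrange.interpolate_apply, Polynomial.finsetSum_coeff, Polynomial.coeff_C_mul,
    Polynomial.eval_pow, Polynomial.eval_X, Polynomial.coeff_X_pow] at h2
  rw [Finset.sum_congr rfl fun j _ => mul_comm _ _, ← h2]
  by_cases hks : k = s
  · simp [hks]
  · simp [hks, Ne.symm hks]

/-- the coefficients -/
def cf (n s : ℕ) : Fin (n + 1) → ℝ := Classical.choose (exists_cf n s)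

lemma cf_spec (n s : ℕ) {k : ℕ} (hk : k ≤ n) :
    ∑ j : Fin (n + 1), cf n s j * ((j : ℕ) : ℝ) ^ k = if k = s then 1 else 0 :=
  Classical.choose_spec (exists_cf n s) k hk

/-- the coefficient of `σ ^ s` in `adj (w + σ ρ)` -/
def coA (s : ℕ) (w ρ : Matrix (Fin n) (Fin n) ℂ) : Matrix (Fin n) (Fin n) ℂ :=
  ∑ j : Fin (n + 1), (cf n s j : ℂ) • (w + (((j : ℕ) : ℝ) : ℂ) • ρ).adjugate

/-- elementary symmetric function of the `η l`, `l ≠ j` -/
def Ee (η : Fin n → ℝ) (s : ℕ) (j : Fin n) : ℝ :=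
  ∑ t ∈ (univ.erase j).powerset with t.card = s, ∏ l ∈ t, η l

lemma cf_prod (η : Fin n → ℝ) (s : ℕ) (j : Fin n) :
    ∑ m : Fin (n + 1), cf n s m * ∏ l ∈ univ.erase j, (1 + ((m : ℕ) : ℝ) * η l) = Ee η s j := by
  have h1 : ∀ m : Fin (n + 1), ∏ l ∈ univ.erase j, (1 + ((m : ℕ) : ℝ) * η l) =
      ∑ t ∈ (univ.erase j).powerset, ((m : ℕ) : ℝ) ^ t.card * ∏ l ∈ t, η l := by
    intro m
    rw [Finset.prod_one_add]
    refine Finset.sum_congr rfl fun t _ => ?_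
    rw [Finset.prod_mul_distrib, Finset.prod_const]
  simp only [h1, Finset.mul_sum]
  rw [Finset.sum_comm]
  unfold Ee
  rw [Finset.sum_filter]
  refine Finset.sum_congr rfl fun t ht => ?_
  have hc : t.card ≤ n := by
    have := Finset.card_le_univ t
    simpa using this
  have h2 : ∑ m : Fin (n + 1), cf n s m * (((m : ℕ) : ℝ) ^ t.card * ∏ l ∈ t, η l) =
      (∑ m : Fin (n + 1), cf n s m * ((m : ℕ) : ℝ) ^ t.card) * ∏ l ∈ t, η l := by
    rw [Finset.sum_mul]; exact Finset.sum_congr rfl fun m _ => by ring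
  rw [h2, cf_spec n s hc]
  split_ifs <;> simp

lemma Ee_nonneg {η : Fin n → ℝ} (h : ∀ l, 0 ≤ η l) (s : ℕ) (j : Fin n) : 0 ≤ Ee η s j :=
  Finset.sum_nonneg fun _ _ => Finset.prod_nonneg fun l _ => h l

lemma Ee_le {η : Fin n → ℝ} (h : ∀ l, 0 ≤ η l) (s : ℕ) (j : Fin n) :
    Ee η s j ≤ ∏ l ∈ univ.erase j, (1 + η l) := by
  rw [Finset.prod_one_add]
  unfold Ee
  exact Finset.sum_le_sum_of_subset_of_nonneg (Finset.filter_subset _ _)
    fun t _ _ => Finset.prod_nonneg fun l _ => h l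

lemma Ee_zero {η : Fin n → ℝ} {s : ℕ} (hs : (univ.filter fun l => η l ≠ 0).card ≤ s) {j : Fin n}
    (hj : η j ≠ 0) : Ee η s j = 0 := by
  refine Finset.sum_eq_zero fun t ht => ?_
  rw [Finset.mem_filter, Finset.mem_powerset] at ht
  by_contra h0
  have h1 : ∀ l ∈ t, η l ≠ 0 := fun l hl h => h0 (Finset.prod_eq_zero hl h)
  have h2 : insert j t ⊆ univ.filter fun l => η l ≠ 0 := by
    intro l hl
    rcases Finset.mem_insert.1 hl with rfl | hl
    · simpa using hj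
    · simpa using h1 l hl
  have h3 : j ∉ t := fun h => by simpa using ht.1 h
  have := Finset.card_le_card h2
  rw [Finset.card_insert_of_notMem h3, ht.2] at this
  omega

lemma Ee_pos {η : Fin n → ℝ} (h : ∀ l, 0 ≤ η l) {s : ℕ}
    (hs : (univ.filter fun l => η l ≠ 0).card = s) {j : Fin n}
    (hj : η j = 0) : 0 < Ee η s j := by
  have hmem : (univ.filter fun l => η l ≠ 0) ∈ (univ.erase j).powerset.filter
      fun t => t.card = s := by
    rw [Finset.mem_filter, Finset.mem_powerset]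
    refine ⟨fun l hl => ?_, hs⟩
    rw [Finset.mem_filter] at hl
    rw [Finset.mem_erase]
    exact ⟨fun h => hl.2 (h ▸ hj), Finset.mem_univ l⟩
  unfold Ee
  refine Finset.sum_pos' (fun t _ => Finset.prod_nonneg fun l _ => h l) ⟨_, hmem, ?_⟩
  refine Finset.prod_pos fun l hl => ?_
  rw [Finset.mem_filter] at hl
  exact lt_of_le_of_ne (h l) (Ne.symm hl.2)

/-- a frame for the pair `w > 0`, `ρ ≥ 0` -/
structure Frm (w ρ T U : Matrix (Fin n) (Fin n) ℂ) (η : Fin n → ℝ) : Prop where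
  nn : ∀ k, 0 ≤ η k
  ut : U * T = 1
  tu : T * U = 1
  w_eq : w = T * Tᴴ
  ρ_eq : ρ = T * Matrix.diagonal (fun k => ((η k : ℝ) : ℂ)) * Tᴴ

lemma exists_frm {w ρ : Matrix (Fin n) (Fin n) ℂ} (hw : w.PosDef) (hρ : ρ.PosSemidef) :
    ∃ T U η, Frm w ρ T U η := by
  obtain ⟨T, U, η, h1, h2, h3, h4, h5⟩ := P272.K.QN.H327.exists_frame hw hρ
  exact ⟨T, U, η, h1, h2, h3, h4, h5⟩

section
variable {w ρ T U : Matrix (Fin n) (Fin n) ℂ} {η : Fin n → ℝ}

lemma Frm.add_smul (h : Frm w ρ T U η) (σ : ℝ) :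
    w + (σ : ℂ) • ρ = T * Matrix.diagonal (fun k => ((1 + σ * η k : ℝ) : ℂ)) * Tᴴ := by
  have h1 : Matrix.diagonal (fun k => ((1 + σ * η k : ℝ) : ℂ)) =
      (1 : Matrix (Fin n) (Fin n) ℂ) + (σ : ℂ) • Matrix.diagonal (fun k => ((η k : ℝ) : ℂ)) := by
    rw [← Matrix.diagonal_one, ← Matrix.diagonal_smul, Matrix.diagonal_add]
    congr 1
    funext k
    simp
  rw [h1, Matrix.mul_add, Matrix.add_mul, Matrix.mul_one, ← h.w_eq, Matrix.mul_smul,
    Matrix.smul_mul, ← h.ρ_eq]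

lemma Frm.adj (h : Frm w ρ T U η) (σ : ℝ) : (w + (σ : ℂ) • ρ).adjugate =
    T.adjugateᴴ * Matrix.diagonal (fun k =>
      ((∏ l ∈ univ.erase k, (1 + σ * η l) : ℝ) : ℂ)) * T.adjugate := by
  rw [h.add_smul, Matrix.adjugate_mul_distrib, Matrix.adjugate_mul_distrib,
    Matrix.adjugate_diagonal, Matrix.adjugate_conjTranspose, Matrix.mul_assoc]
  congr 3
  funext k
  push_cast
  rfl

lemma Frm.coA (h : Frm w ρ T U η) (s : ℕ) : coA s w ρ =
    T.adjugateᴴ * Matrix.diagonal (fun k => ((Ee η s k : ℝ) : ℂ)) * T.adjugate := by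
  unfold H395.coA
  simp only [h.adj]
  have h1 : ∀ j : Fin (n + 1), (cf n s j : ℂ) • (T.adjugateᴴ * Matrix.diagonal (fun k =>
      ((∏ l ∈ univ.erase k, (1 + ((j : ℕ) : ℝ) * η l) : ℝ) : ℂ)) * T.adjugate) =
      T.adjugateᴴ * (Matrix.diagonal (fun k =>
      ((cf n s j * ∏ l ∈ univ.erase k, (1 + ((j : ℕ) : ℝ) * η l) : ℝ) : ℂ))) * T.adjugate := by
    intro j
    rw [← Matrix.smul_mul, ← Matrix.mul_smul, ← Matrix.diagonal_smul]
    congr 3
    funext k
    simp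
  simp only [h1]
  rw [← Matrix.sum_mul, ← Matrix.mul_sum]
  congr 2
  ext i k
  rw [Matrix.sum_apply]
  by_cases hik : i = k
  · subst hik
    simp only [Matrix.diagonal_apply_eq]
    rw [← cf_prod η s i]
    push_cast
    rfl
  · simp [Matrix.diagonal_apply_ne _ hik]

lemma Frm.rank (h : Frm w ρ T U η) : ρ.rank = (univ.filter fun l => η l ≠ 0).card := by
  have hT : IsUnit T.det := by
    have := congrArg Matrix.det h.tu
    rw [Matrix.det_mul, Matrix.det_one] at this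
    exact IsUnit.of_mul_eq_one _ this
  have hT' : IsUnit Tᴴ.det := by rw [Matrix.det_conjTranspose]; exact hT.star
  rw [h.ρ_eq, Matrix.rank_mul_eq_left_of_isUnit_det _ _ hT',
    Matrix.rank_mul_eq_right_of_isUnit_det _ _ hT, Matrix.rank_diagonal,
    Fintype.card_subtype]
  congr 1
  ext l
  simp

lemma diag_pos {E : Fin n → ℝ} (hE : ∀ k, 0 ≤ E k) :
    (Matrix.diagonal (fun k => ((E k : ℝ) : ℂ)) : Matrix (Fin n) (Fin n) ℂ).PosSemidef :=
  Matrix.posSemidef_diagonal_iff.2 fun k => by exact_mod_cast hE k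

lemma sandwich_pos {S : Matrix (Fin n) (Fin n) ℂ} {E : Fin n → ℝ} (hE : ∀ k, 0 ≤ E k) :
    (Sᴴ * Matrix.diagonal (fun k => ((E k : ℝ) : ℂ)) * S).PosSemidef :=
  (diag_pos hE).conjTranspose_mul_mul_same S

lemma sandwich_form (S : Matrix (Fin n) (Fin n) ℂ) (E : Fin n → ℝ) (α : Fin n → ℂ) :
    star α ⬝ᵥ (Sᴴ * Matrix.diagonal (fun k => ((E k : ℝ) : ℂ)) * S) *ᵥ α =
      ((∑ k, E k * ‖(S *ᵥ α) k‖ ^ 2 : ℝ) : ℂ) := by
  rw [← Matrix.mulVec_mulVec, ← Matrix.mulVec_mulVec, Matrix.dotProduct_mulVec,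
    ← Matrix.star_mulVec]
  simp only [dotProduct, Matrix.mulVec_diagonal, Pi.star_apply, RCLike.star_def]
  push_cast
  refine Finset.sum_congr rfl fun k _ => ?_
  rw [← Complex.conj_mul']
  ring

lemma Frm.adj_mul (_h : Frm w ρ T U η) : T.adjugate = T.det • U := by
  have h1 : T.adjugate * (T * U) = T.det • U := by
    rw [← Matrix.mul_assoc, Matrix.adjugate_mul, Matrix.smul_mul, Matrix.one_mul]
  rwa [_h.tu, Matrix.mul_one] at h1

lemma Frm.det_ne (h : Frm w ρ T U η) : T.det ≠ 0 := by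
  intro h0
  have := congrArg Matrix.det h.tu
  rw [Matrix.det_mul, Matrix.det_one, h0, zero_mul] at this
  exact zero_ne_one this

/-- the condition `ξ ∈ ker ρ` in the frame -/
lemma Frm.ker (h : Frm w ρ T U η) {ξ : Fin n → ℂ} :
    (∀ k, ∑ j, ρ j k * ξ j = 0) ↔ ∀ k, η k ≠ 0 → (Tᵀ *ᵥ ξ) k = 0 := by
  have h1 : ∀ ξ : Fin n → ℂ, (fun k => ∑ j, ρ j k * ξ j) =
      (Tᴴ)ᵀ *ᵥ (Matrix.diagonal (fun k => ((η k : ℝ) : ℂ)) *ᵥ (Tᵀ *ᵥ ξ)) := by
    intro ξ
    have : (fun k => ∑ j, ρ j k * ξ j) = ρᵀ *ᵥ ξ := by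
      funext k; simp [Matrix.mulVec, dotProduct]
    rw [this, h.ρ_eq, Matrix.transpose_mul, Matrix.transpose_mul, Matrix.diagonal_transpose,
      Matrix.mulVec_mulVec, Matrix.mulVec_mulVec, ← Matrix.mul_assoc]
  constructor
  · intro h0 k hk
    have h2 : (Tᴴ)ᵀ *ᵥ (Matrix.diagonal (fun k => ((η k : ℝ) : ℂ)) *ᵥ (Tᵀ *ᵥ ξ)) = 0 := by
      rw [← h1]; funext k; exact h0 k
    have h3 : (Uᴴ)ᵀ * (Tᴴ)ᵀ = 1 := by
      rw [← Matrix.transpose_mul, ← Matrix.conjTranspose_mul, h.ut]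
      simp
    have h4 := congrArg (fun x => (Uᴴ)ᵀ *ᵥ x) h2
    simp only [Matrix.mulVec_mulVec] at h4
    rw [← Matrix.mul_assoc, ← Matrix.mul_assoc, h3, Matrix.one_mul, Matrix.mulVec_zero,
      ← Matrix.mulVec_mulVec] at h4
    have h5 := congrFun h4 k
    rw [Matrix.mulVec_diagonal] at h5
    rcases mul_eq_zero.1 h5 with h6 | h6
    · exact absurd (by exact_mod_cast h6) hk
    · exact h6
  · intro h0 k
    have h2 : Matrix.diagonal (fun k => ((η k : ℝ) : ℂ)) *ᵥ (Tᵀ *ᵥ ξ) = 0 := by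
      funext k
      rw [Matrix.mulVec_diagonal]
      by_cases hk : η k = 0
      · simp [hk]
      · rw [h0 k hk]; simp
    have := congrFun (h1 ξ) k
    rw [h2, Matrix.mulVec_zero] at this
    exact this

end

/-! ### the consequences -/

section
variable {w ρ : Matrix (Fin n) (Fin n) ℂ}

lemma coA_posSemidef (hw : w.PosDef) (hρ : ρ.PosSemidef) (s : ℕ) : (coA s w ρ).PosSemidef := by
  obtain ⟨T, U, η, h⟩ := exists_frm hw hρ
  rw [h.coA]
  exact sandwich_pos fun k => Ee_nonneg h.nn s k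

/-- a `(1,0)`-form which kills the kernel of `ρ` is killed by `coA s w ρ` -/
lemma coA_mulVec_eq_zero (hw : w.PosDef) (hρ : ρ.PosSemidef) {s : ℕ} (hs : ρ.rank ≤ s)
    {β : Fin n → ℂ} (hβ : ∀ ξ : Fin n → ℂ, (∀ k, ∑ j, ρ j k * ξ j = 0) → ∑ j, β j * ξ j = 0) :
    coA s w ρ *ᵥ β = 0 := by
  obtain ⟨T, U, η, h⟩ := exists_frm hw hρ
  rw [h.rank] at hs
  have h1 : ∀ k, η k = 0 → (U *ᵥ β) k = 0 := by
    intro k hk
    have h2 : ∀ l, (Tᵀ *ᵥ (fun j => U k j)) l = (1 : Matrix (Fin n) (Fin n) ℂ) k l := by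
      intro l
      rw [← h.ut]
      simp only [Matrix.mulVec, dotProduct, Matrix.transpose_apply, Matrix.mul_apply]
      exact Finset.sum_congr rfl fun j _ => mul_comm _ _
    have h3 := hβ (fun j => U k j) (h.ker.2 fun l hl => by
      rw [h2, Matrix.one_apply_ne]
      rintro rfl
      exact hl hk)
    rw [← h3]
    simp only [Matrix.mulVec, dotProduct]
    exact Finset.sum_congr rfl fun j _ => mul_comm _ _
  rw [h.coA, ← Matrix.mulVec_mulVec, ← Matrix.mulVec_mulVec]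
  have h4 : Matrix.diagonal (fun k => ((Ee η s k : ℝ) : ℂ)) *ᵥ (T.adjugate *ᵥ β) = 0 := by
    funext k
    rw [Matrix.mulVec_diagonal]
    by_cases hk : η k = 0
    · rw [h.adj_mul, Matrix.smul_mulVec]
      simp [h1 k hk]
    · rw [Ee_zero hs hk]; simp
  rw [h4, Matrix.mulVec_zero]

/-- the nondegeneracy of `coA s w ρ` on the kernel of `ρ` -/
lemma coA_nondeg (hw : w.PosDef) (hρ : ρ.PosSemidef) {s : ℕ} (hs : ρ.rank = s)
    {α : Fin n → ℂ} (hα : star α ⬝ᵥ coA s w ρ *ᵥ α = 0) {ξ : Fin n → ℂ}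
    (hξ : ∀ k, ∑ j, ρ j k * ξ j = 0) : ∑ j, α j * ξ j = 0 := by
  obtain ⟨T, U, η, h⟩ := exists_frm hw hρ
  rw [h.rank] at hs
  rw [h.coA, sandwich_form] at hα
  have hα' : ∑ k, Ee η s k * ‖(T.adjugate *ᵥ α) k‖ ^ 2 = 0 := by exact_mod_cast hα
  rw [Finset.sum_eq_zero_iff_of_nonneg (fun k _ => mul_nonneg (Ee_nonneg h.nn s k)
    (sq_nonneg _))] at hα'
  have h1 : ∀ k, η k = 0 → (U *ᵥ α) k = 0 := by
    intro k hk
    have h2 := hα' k (Finset.mem_univ k)
    rcases mul_eq_zero.1 h2 with h3 | h3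
    · exact absurd h3 (Ee_pos h.nn hs hk).ne'
    · have h4 : (T.adjugate *ᵥ α) k = 0 := by simpa using h3
      rw [h.adj_mul, Matrix.smul_mulVec, Pi.smul_apply, smul_eq_mul] at h4
      exact (mul_eq_zero.1 h4).resolve_left h.det_ne
  have h2 := h.ker.1 hξ
  have h3 : ∑ j, α j * ξ j = (U *ᵥ α) ⬝ᵥ (Tᵀ *ᵥ ξ) := by
    rw [Matrix.dotProduct_mulVec, Matrix.vecMul_transpose, Matrix.mulVec_mulVec, h.tu,
      Matrix.one_mulVec]
    rfl
  rw [h3]
  refine Finset.sum_eq_zero fun k _ => ?_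
  by_cases hk : η k = 0
  · rw [h1 k hk, zero_mul]
  · rw [h2 k hk, mul_zero]

lemma coA_le_adj (hw : w.PosDef) (hρ : ρ.PosSemidef) (s : ℕ) :
    ((w + ρ).adjugate - coA s w ρ).PosSemidef := by
  obtain ⟨T, U, η, h⟩ := exists_frm hw hρ
  have h1 := h.adj 1
  rw [Complex.ofReal_one, one_smul] at h1
  rw [h1, h.coA, ← Matrix.sub_mul, ← Matrix.mul_sub, Matrix.diagonal_sub]
  have h2 : (fun k => ((∏ l ∈ univ.erase k, (1 + 1 * η l) : ℝ) : ℂ) - ((Ee η s k : ℝ) : ℂ)) =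
      fun k => (((∏ l ∈ univ.erase k, (1 + η l)) - Ee η s k : ℝ) : ℂ) := by
    funext k; push_cast; simp
  rw [h2]
  exact sandwich_pos fun k => sub_nonneg.2 (Ee_le h.nn s k)

/-- the adjugate is monotone -/
lemma adj_mono {a b : Matrix (Fin n) (Fin n) ℂ} (ha : a.PosDef) (hab : (b - a).PosSemidef) :
    (b.adjugate - a.adjugate).PosSemidef := by
  obtain ⟨T, U, η, h⟩ := exists_frm ha hab
  have h1 := h.adj 1
  have h0 := h.adj 0
  rw [Complex.ofReal_one, one_smul, add_sub_cancel] at h1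
  rw [Complex.ofReal_zero, zero_smul, add_zero] at h0
  rw [h1, h0, ← Matrix.sub_mul, ← Matrix.mul_sub, Matrix.diagonal_sub]
  have h2 : (fun k => ((∏ l ∈ univ.erase k, (1 + 1 * η l) : ℝ) : ℂ) -
      ((∏ l ∈ univ.erase k, (1 + 0 * η l) : ℝ) : ℂ)) =
      fun k => (((∏ l ∈ univ.erase k, (1 + η l)) - 1 : ℝ) : ℂ) := by
    funext k; push_cast; simp
  rw [h2]
  refine sandwich_pos fun k => sub_nonneg.2 ?_
  exact Finset.prod_induction _ (fun x : ℝ => 1 ≤ x)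
    (fun a b ha hb => one_le_mul_of_one_le_of_one_le ha hb) le_rfl
    (fun l _ => by linarith [h.nn l])

lemma adj_eq {a : Matrix (Fin n) (Fin n) ℂ} (ha : a.PosDef) : a.adjugate = a.det • a⁻¹ := by
  rw [Matrix.inv_def, smul_smul, Ring.mul_inverse_cancel, one_smul]
  exact ha.det_pos.ne'.isUnit

lemma adj_posSemidef {a : Matrix (Fin n) (Fin n) ℂ} (ha : a.PosDef) : a.adjugate.PosSemidef := by
  rw [adj_eq ha]
  exact ha.inv.posSemidef.smul ha.det_pos.le

lemma coA_le {w' : Matrix (Fin n) (Fin n) ℂ} (hw : w.PosDef) (hρ : ρ.PosSemidef) (s : ℕ)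
    (h : (w' - (w + ρ)).PosSemidef) : (w'.adjugate - coA s w ρ).PosSemidef := by
  have h1 := adj_mono (hw.add_posSemidef hρ) h
  have h2 := h1.add (coA_le_adj hw hρ s)
  rwa [sub_add_sub_cancel] at h2

/-- `α* adj(a) α ≤ B det a` if `α α* ≤ B a` -/
lemma adj_form_le {a : Matrix (Fin n) (Fin n) ℂ} (ha : a.PosDef) {α : Fin n → ℂ} {B : ℝ}
    (hB : 0 ≤ B) (h : ((B : ℂ) • a - vecMulVec α (star α)).PosSemidef) :
    (star α ⬝ᵥ a.adjugate *ᵥ α).re ≤ B * a.det.re := by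
  set x : Fin n → ℂ := a⁻¹ *ᵥ α with hx
  set q : ℂ := star α ⬝ᵥ a⁻¹ *ᵥ α with hq
  have hqn : 0 ≤ q := ha.inv.posSemidef.dotProduct_mulVec_nonneg α
  have hdet := ha.det_pos
  have hu : IsUnit a.det := hdet.ne'.isUnit
  have h1 := h.dotProduct_mulVec_nonneg x
  have hax : a *ᵥ x = α := by
    rw [hx, Matrix.mulVec_mulVec, Matrix.mul_nonsing_inv _ hu, Matrix.one_mulVec]
  have hsx : star x ⬝ᵥ α = q := by
    rw [hx, Matrix.star_mulVec, ← Matrix.dotProduct_mulVec,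
      (ha.inv.isHermitian : (a⁻¹)ᴴ = a⁻¹)]
  have h2 : star x ⬝ᵥ ((B : ℂ) • a - vecMulVec α (star α)) *ᵥ x = B * q - q * q := by
    rw [Matrix.sub_mulVec, Matrix.smul_mulVec, hax, dotProduct_sub, dotProduct_smul, hsx,
      Matrix.vecMulVec_mulVec, smul_eq_mul]
    congr 1
    have h3 : star x ⬝ᵥ (MulOpposite.op (star α ⬝ᵥ x) • α) = (star x ⬝ᵥ α) * (star α ⬝ᵥ x) := by
      generalize star α ⬝ᵥ x = c
      simp only [dotProduct, Pi.smul_apply, MulOpposite.smul_eq_mul_unop, MulOpposite.unop_op,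
        Finset.sum_mul]
      exact Finset.sum_congr rfl fun j _ => by ring
    rw [h3, hsx, hx]
  rw [h2] at h1
  obtain ⟨r, hr0, hr⟩ : ∃ r : ℝ, 0 ≤ r ∧ q = r := by
    rw [Complex.le_def] at hqn
    refine ⟨q.re, hqn.1, ?_⟩
    apply Complex.ext
    · simp
    · simpa using hqn.2.symm
  rw [hr] at h1
  have h3 : (0 : ℝ) ≤ B * r - r * r := by exact_mod_cast h1
  have h4 : r ≤ B ∨ r = 0 := by
    by_cases hr' : r = 0
    · exact Or.inr hr'
    · left
      have : 0 < r := lt_of_le_of_ne hr0 (Ne.symm hr')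
      nlinarith
  obtain ⟨d, hd0, hd⟩ : ∃ d : ℝ, 0 < d ∧ a.det = d := by
    rw [Complex.lt_def] at hdet
    refine ⟨a.det.re, hdet.1, ?_⟩
    apply Complex.ext
    · simp
    · simpa using hdet.2.symm
  rw [adj_eq ha, Matrix.smul_mulVec, dotProduct_smul, ← hq, hr, hd, smul_eq_mul]
  have h6 : ((d : ℂ) * (r : ℂ)).re = d * r := by rw [← Complex.ofReal_mul, Complex.ofReal_re]
  rw [h6, Complex.ofReal_re]
  rcases h4 with h | h
  · nlinarith
  · rw [h, mul_zero]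
    exact mul_nonneg hB hd0.le

/-- the trace of a product of semipositive matrices -/
lemma trace_mul_nonneg {a b : Matrix (Fin n) (Fin n) ℂ} (ha : a.PosSemidef) (hb : b.PosSemidef) :
    0 ≤ (a * b).trace := by
  obtain ⟨B, hB⟩ := P272.K.C2.exists_factor hb
  rw [hB, ← Matrix.mul_assoc, Matrix.trace_mul_comm, ← Matrix.mul_assoc]
  exact (ha.mul_mul_conjTranspose_same B).trace_nonneg

end

end Vale.Agent.P284.H395
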