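import Vale.Agent.P284.H573.HForm
import Vale.Agent.P284.H213.Grp.NormS
import Vale.Agent.P284.H894.W.Spec

/-!
# P284 (helper395), module C-STK: statements

`StkAStmt` is the analytic part, on the compact Kähler manifold `X`.  `CStkStmt` is what the other
parts of step [C] use: there is no leaf of positive dimension along which the lift `F` of the Albanese
map moves, if the translates of the sheet are locally finite modulo a subgroup of the centralizer of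
`K`.
-/

open scoped Manifold ContDiff Topology ComplexConjugate ComplexOrder
open Filter Set Metric

noncomputable section

namespace Vale.Agent.P284.H395

open Vale.Agent.P272.K Vale.Agent.P284.H894 Vale.Agent.P284.H894.G Vale.Agent.P284.H894.V
  Vale.Agent.P284.H894.W Vale.Agent.P284.H573 Vale.Agent.P284.H213.Grp

section
variable {n : ℕ} {X : Type} [TopologicalSpace X] [ChartedSpace (Cm n) X]

/-- `α` is the `(1,0)`-part of a closed real `1`-form on `X` with pluriharmonic local potentials. -/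
structure IsAlpha (α : Chart n X → Cm n → Cm n) : Prop where
  pot : ∀ e x, At e x → ∃ g : Cm n → ℝ, ∀ᶠ z in 𝓝 (e x), ContDiffAt ℝ ∞ g z ∧ cHess g z = 0 ∧
    ∀ j, α e z j = dz j (fun y => (g y : ℂ)) z
  change : ∀ e e' x, At e x → At e' x → ∀ i, α e (e x) i = ∑ p, jacM e e' x p i * α e' (e' x) p

/-- `ρ` is a smooth closed semipositive `(1,1)`-form of rank at most `s` off `Z`. -/
structure IsRho (Z : Set X) (s : ℕ) (ρ : Chart n X → Cm n → Matrix (Fin n) (Fin n) ℂ) : Prop where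
  smooth : ∀ e x, At e x → x ∉ Z → ∀ i j, ContDiffAt ℝ ∞ (fun z => ρ e z i j) (e x)
  change : ∀ e e' x, At e x → At e' x → x ∉ Z → ρ e (e x) =
    (jacM e e' x).transpose * ρ e' (e' x) * (jacM e e' x).map (starRingEnd ℂ)
  closed : ∀ e x, At e x → x ∉ Z → ∀ i j k,
    dz k (fun z => ρ e z i j) (e x) = dz i (fun z => ρ e z k j) (e x)
  psd : ∀ e x, At e x → x ∉ Z → (ρ e (e x)).PosSemidef
  rank : ∀ e x, At e x → x ∉ Z → (ρ e (e x)).rank ≤ s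

/-- `u` is smooth off `Z`, `-∞` on `Z`, and `i∂∂̄u + C w ≥ ρ`. -/
structure IsPot (Z : Set X) (w ρ : Chart n X → Cm n → Matrix (Fin n) (Fin n) ℂ) (C : ℝ)
    (u : X → ℝ) : Prop where
  smooth : ∀ (e : Chart n X) x, At e x → x ∉ Z → ContDiffAt ℝ ∞ (fun z => u (e.symm z)) (e x)
  lim : ∀ x ∈ Z, Tendsto u (𝓝[Zᶜ] x) atBot
  ge : ∀ e x, At e x → x ∉ Z →
    (cHess (fun z => u (e.symm z)) (e x) + (C : ℂ) • w e (e x) - ρ e (e x)).PosSemidef

end

/-- **StkA**: the analytic part (Stokes off `Z`). -/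
def StkAStmt : Prop :=
  ∀ (n : ℕ) (X : Type) [TopologicalSpace X] [T2Space X] [CompactSpace X]
    [ChartedSpace (Cm n) X] [IsManifold 𝓘(ℂ, Cm n) ω X]
    (w : Chart n X → Cm n → Matrix (Fin n) (Fin n) ℂ) (_ : IsKahler w)
    (Z : Set X) (_ : IsClosed Z) (s : ℕ) (ρ : Chart n X → Cm n → Matrix (Fin n) (Fin n) ℂ)
    (_ : IsRho Z s ρ) (C : ℝ) (u : X → ℝ) (_ : IsPot Z w ρ C u)
    (α : Chart n X → Cm n → Cm n) (_ : IsAlpha α) (F G : X → ℝ) (B : ℝ)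
    (_ : ∀ x, |F x| ≤ B) (_ : ∀ x, 0 ≤ G x)
    (_ : ∀ (e : Chart n X) x, At e x → x ∉ Z → ContDiffAt ℝ ∞ (fun z => F (e.symm z)) (e x))
    (_ : ∀ x, x ∉ Z → ContinuousAt G x)
    (_ : ∀ e x, At e x → x ∉ Z → ∀ ξ : Cm n, (∀ k, ∑ j, ρ e (e x) j k * ξ j = 0) →
      ∑ j, dz j (fun z => (F (e.symm z) : ℂ)) (e x) * ξ j = (G x : ℂ) * ∑ j, α e (e x) j * ξ j),
    ∀ e x, At e x → x ∉ Z → (ρ e (e x)).rank = s → 0 < G x → ∀ ξ : Cm n,
      (∀ k, ∑ j, ρ e (e x) j k * ξ j = 0) → ∑ j, α e (e x) j * ξ j = 0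

/-- The normal form `v = (det (db ξ))^m γ(β)` near `y₀`: `b` is a submersion to `ℂ^R`, `β` has values in
`ℂ^s`, `γ ≠ 0`. -/
def NFAt {n : ℕ} {X E : Type} [TopologicalSpace X] [ChartedSpace (Cm n) X] [TopologicalSpace E]
    (p : E → X) (R m s : ℕ) {H : Type} [NormedAddCommGroup H] [InnerProductSpace ℂ H]
    (v : E → Chart n X → (Fin R → Cm n) → H) (y₀ : E) : Prop :=
  ∃ (e : Chart n X) (b : Cm n → Cm R) (β : Cm n → Cm s) (γ : Cm s → H), At e (p y₀) ∧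
    AnalyticAt ℂ b (e (p y₀)) ∧ Function.Surjective (fderiv ℂ b (e (p y₀))) ∧
    AnalyticAt ℂ β (e (p y₀)) ∧ AnalyticAt ℂ γ (β (e (p y₀))) ∧ γ (β (e (p y₀))) ≠ 0 ∧
    ∀ᶠ y in 𝓝 y₀, ∀ ξ : Fin R → Cm n, v y e ξ =
      (Matrix.of fun i j => fderiv ℂ b (e (p y)) (ξ j) i).det ^ m • γ (β (e (p y)))

/-- `v` does not vanish at `y`. -/
def NZ {n R : ℕ} {X E : Type} [TopologicalSpace X] [ChartedSpace (Cm n) X] {H : Type}
    [NormedAddCommGroup H] (p : E → X) (v : E → Chart n X → (Fin R → Cm n) → H) (y : E) : Prop :=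
  ∃ e : Chart n X, At e (p y) ∧ ∃ ξ, v y e ξ ≠ 0

/-- **StkU**: the form `ρ = i∂∂̄ log ‖v(ξ)‖²` (independent of `ξ`, `v(ξ) ≠ 0`) and its potential. -/
def StkUStmt : Prop :=
  ∀ (n : ℕ) (X : Type) [TopologicalSpace X] [T2Space X] [CompactSpace X]
    [ChartedSpace (Cm n) X] [IsManifold 𝓘(ℂ, Cm n) ω X]
    (w : Chart n X → Cm n → Matrix (Fin n) (Fin n) ℂ) (_ : IsKahler w)
    (E : Type) [TopologicalSpace E] [ConnectedSpace E] (p : E → X) (_ : IsCoveringMap p)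
    (_ : Function.Surjective p)
    (H : Type) [NormedAddCommGroup H] [InnerProductSpace ℂ H] [CompleteSpace H]
    (R m s : ℕ) (_ : 1 ≤ R) (_ : 1 ≤ m) (v : E → Chart n X → (Fin R → Cm n) → H)
    (_ : HForm n R m p H v) (y₀ : E) (_ : NFAt p R m s v y₀),
    IsClosed {x | ∃ y, p y = x ∧ ¬ NZ p v y} ∧
    ∃ (ρ : Chart n X → Cm n → Matrix (Fin n) (Fin n) ℂ) (C : ℝ) (u : X → ℝ),
      IsRho {x | ∃ y, p y = x ∧ ¬ NZ p v y} s ρ ∧ IsPot {x | ∃ y, p y = x ∧ ¬ NZ p v y} w ρ C u ∧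
      ∀ (y : E) (e : Chart n X), At e (p y) → ∀ V : Cm n × (Fin R → Cm n) → H,
        (∀ ξ, AnalyticAt ℂ V (e (p y), ξ)) → (∀ᶠ y' in 𝓝 y, ∀ ξ, v y' e ξ = V (e (p y'), ξ)) →
        ∀ ξ, v y e ξ ≠ 0 →
          ρ e (e (p y)) = cHess (fun z => Real.log (‖V (z, ξ)‖ ^ 2)) (e (p y))

/-- The leaf space data near the point `b₀` of `ℂ^s`: the (projectively immersive) map `γ` and the
affine planes `t b + range (N b)` of `ℂ^q`. -/
structure LeafDat (q s k : ℕ) (H : Type) [NormedAddCommGroup H] [InnerProductSpace ℂ H] where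
  b₀ : Cm s
  γ : Cm s → H
  t : Cm s → Cm q
  N : Cm s → Cm k →L[ℂ] Cm q
  γan : AnalyticAt ℂ γ b₀
  imm : ImmAt γ b₀
  tan : AnalyticAt ℂ t b₀
  Nan : AnalyticAt ℂ N b₀
  inj : Function.Injective (N b₀)

section
variable {n R q s k : ℕ} {X : Type} [TopologicalSpace X] [ChartedSpace (Cm n) X] {E : Type}
  [TopologicalSpace E] {H : Type} [NormedAddCommGroup H] [InnerProductSpace ℂ H]

/-- The plane `Q b`. -/
def LeafDat.Q (D : LeafDat q s k H) (b : Cm s) : Submodule ℂ (Cm q) :=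
  LinearMap.range (D.N b : Cm k →ₗ[ℂ] Cm q)

/-- `y` lies on the sheet of `D`, over the point `b`: near `y` there is a holomorphic map `β` to `ℂ^s`,
`β y = b`, such that `v ∈ ℂ γ (β)` and `F ∈ t (β) + Q (β)`. -/
def Sh (p : E → X) (v : E → Chart n X → (Fin R → Cm n) → H) (F : E → Cm q)
    (D : LeafDat q s k H) (y : E) (b : Cm s) : Prop :=
  ∃ (e : Chart n X) (β : Cm n → Cm s), At e (p y) ∧ AnalyticAt ℂ β (e (p y)) ∧
    β (e (p y)) = b ∧ ∀ᶠ y' in 𝓝 y, (∀ ξ, ∃ a : ℂ, v y' e ξ = a • D.γ (β (e (p y')))) ∧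
      F y' - D.t (β (e (p y'))) ∈ D.Q (β (e (p y')))

/-- The normal form near the starting point `y₀` of the sheet: `v = (det (db ξ))^m γ(β)`, where `b` is
a submersion to `ℂ^R` and `β` a submersion to `ℂ^s`, `F ∈ t (β) + Q (β)`, and `F` moves in all
directions of `Q` along the leaf of `y₀`. -/
def LeafAt (m : ℕ) (p : E → X) (v : E → Chart n X → (Fin R → Cm n) → H) (F : E → Cm q)
    (D : LeafDat q s k H) (y₀ : E) : Prop :=
  ∃ (e : Chart n X) (b : Cm n → Cm R) (β : Cm n → Cm s) (f : Cm n → Cm q), At e (p y₀) ∧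
    AnalyticAt ℂ b (e (p y₀)) ∧ Function.Surjective (fderiv ℂ b (e (p y₀))) ∧
    AnalyticAt ℂ β (e (p y₀)) ∧ Function.Surjective (fderiv ℂ β (e (p y₀))) ∧
    β (e (p y₀)) = D.b₀ ∧
    (∀ᶠ y in 𝓝 y₀, F y = f (e (p y))) ∧ AnalyticAt ℂ f (e (p y₀)) ∧
    (∀ᶠ y in 𝓝 y₀, ∀ ξ : Fin R → Cm n, v y e ξ =
      (Matrix.of fun i j => fderiv ℂ b (e (p y)) (ξ j) i).det ^ m • D.γ (β (e (p y)))) ∧
    (∀ᶠ y in 𝓝 y₀, F y - D.t (β (e (p y))) ∈ D.Q (β (e (p y)))) ∧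
    ∀ x ∈ D.Q D.b₀, ∃ ζ : Cm n, fderiv ℂ β (e (p y₀)) ζ = 0 ∧ fderiv ℂ f (e (p y₀)) ζ = x

end

/-- **C-STK**: `S` is a subgroup of the centralizer of `K`, preserving the sheet, and the translates of
the sheet are locally finite modulo `S`. -/
def CStkStmt : Prop :=
  ∀ (n : ℕ) (X : Type) [TopologicalSpace X] [T2Space X] [CompactSpace X] [ConnectedSpace X]
    [ChartedSpace (Cm n) X] [IsManifold 𝓘(ℂ, Cm n) ω X]
    (w : Chart n X → Cm n → Matrix (Fin n) (Fin n) ℂ) (_ : IsKahler w)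
    (E Γ : Type) [TopologicalSpace E] [ConnectedSpace E] [Group Γ] [MulAction Γ E]
    (p : E → X) (_ : IsGalois Γ p)
    (q : ℕ) (F : E → Cm q) (c : Γ → Cm q) (K : Subgroup Γ) (_ : ∃ B, HolB p w F B)
    (_ : ∀ g y, F (g • y) = F y + c g) (_ : NPkg Γ q c K)
    (H : Type) [NormedAddCommGroup H] [InnerProductSpace ℂ H] [CompleteSpace H]
    (R m : ℕ) (_ : 1 ≤ R) (_ : 1 ≤ m) (v : E → Chart n X → (Fin R → Cm n) → H)
    (_ : HForm n R m p H v)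
    (s k : ℕ) (_ : 1 ≤ k) (D : LeafDat q s k H) (y₀ : E) (_ : LeafAt m p v F D y₀)
    (S : Subgroup Γ) (_ : ∀ g ∈ S, ∀ h ∈ K, g * h = h * g) (r₀ : ℝ) (_ : 0 < r₀)
    (_ : ∀ g ∈ S, ∀ y, ∀ b ∈ ball D.b₀ r₀, NZ p v y → Sh p v F D y b → Sh p v F D (g • y) b)
    (_ : ∀ K₀ : Set E, IsCompact K₀ → (∀ y ∈ K₀, NZ p v y) →
      {a : Γ ⧸ S | ∃ g : Γ, (g : Γ ⧸ S) = a ∧ ∃ y ∈ K₀, ∃ b ∈ ball D.b₀ r₀,
        Sh p v F D (g⁻¹ • y) b}.Finite),
    False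

end Vale.Agent.P284.H395
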