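import Vale.Agent.P284.H395.StkW

/-!
# P284 (helper395), C-STK: proof of `StkAStmt`
-/

open scoped Manifold ContDiff ComplexOrder ComplexConjugate Topology
open MeasureTheory Set Filter Matrix

noncomputable section

namespace Vale.Agent.P284.H395

open Vale.Agent.P272.K

variable {n : ℕ} {X : Type} [TopologicalSpace X] [ChartedSpace (Cm n) X]

section
variable {w ρ : Chart n X → Cm n → Matrix (Fin n) (Fin n) ℂ} {Z : Set X} {s : ℕ} {C C₀ : ℝ}
  {u : X → ℝ} {α : Chart n X → Cm n → Cm n}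

lemma CovOn.mono {U V : Set X} {a : Chart n X → Cm n → Cm n}
    {H : Chart n X → Cm n → Matrix (Fin n) (Fin n) ℂ} (h : CovOn V a H) (hUV : U ⊆ V) :
    CovOn U a H where
  smooth e x hx hU := h.smooth e x hx (hUV hU)
  change e e' x hx hx' hU := h.change e e' x hx hx' (hUV hU)
  Hchange e e' x hx hx' hU := h.Hchange e e' x hx hx' (hUV hU)
  der e x hx hU := h.der e x hx (hUV hU)

lemma covOn_alpha (hα : IsAlpha α) : CovOn univ α fun _ _ => 0 where
  smooth e x h _ i := by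
    obtain ⟨g, hg⟩ := hα.pot e x h
    refine ContDiffAt.congr_of_eventuallyEq
      (INT.smooth_dz (i := i) (INT.ofReal_contDiffAt hg.self_of_nhds.1)) ?_
    filter_upwards [hg] with z hz using hz.2.2 i
  change e e' x h h' _ := by
    funext i
    rw [hα.change e e' x h h' i]
    simp [Matrix.mulVec, dotProduct]
  Hchange e e' x h h' _ := by simp
  der e x h _ j k := by
    obtain ⟨g, hg⟩ := hα.pot e x h
    have h1 : (fun y => conj (α e y k)) =ᶠ[𝓝 (e x)] dzb k (fun y => (g y : ℂ)) := by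
      filter_upwards [hg] with z hz
      rw [hz.2.2 k, AMP.dzb_real_eq]
    rw [INT.dz_congr h1]
    exact congrFun (congrFun hg.self_of_nhds.2.1 j) k

lemma closedOn_add [IsManifold 𝓘(ℂ, Cm n) ω X] (hw : IsKahler w) (hρ : IsRho Z s ρ) (σ : ℂ) :
    ClosedOn Zᶜ fun e z => w e z + σ • ρ e z where
  smooth e x h hx i j := (hw.smooth e x h i j).add (contDiffAt_const.mul (hρ.smooth e x h hx i j))
  change e e' x h h' hx := by
    show w e (e x) + σ • ρ e (e x) = _ * (w e' (e' x) + σ • ρ e' (e' x)) * _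
    rw [hw.change e e' x h h', hρ.change e e' x h h' hx, Matrix.mul_add, Matrix.add_mul,
      Matrix.mul_smul, Matrix.smul_mul]
  closed e x h hx i k l := by
    have f1 := (hw.smooth e x h k l).differentiableAt (by simp)
    have f2 := (hw.smooth e x h i l).differentiableAt (by simp)
    have g1 := (hρ.smooth e x h hx k l).differentiableAt (by simp)
    have g2 := (hρ.smooth e x h hx i l).differentiableAt (by simp)
    change dz i (fun z => w e z k l + σ * ρ e z k l) (e x) =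
      dz k (fun z => w e z i l + σ * ρ e z i l) (e x)
    rw [INT.dz_add f1 (g1.const_mul _), INT.dz_add f2 (g2.const_mul _), INT.dz_const_mul _ g1,
      INT.dz_const_mul _ g2, hw.closed e x h k l i, hρ.closed e x h hx k l i]

variable [IsManifold 𝓘(ℂ, Cm n) ω X] [T2Space X] [CompactSpace X]

/-- `α α* ≤ B w` -/
lemma exists_alpha_bd (hw : IsKahler w) (hα : IsAlpha α) :
    ∃ B : ℝ, 0 ≤ B ∧ ∀ (e : Chart n X) x, At e x →
      ((B : ℂ) • w e (e x) - vecMulVec (α e (e x)) (star (α e (e x)))).PosSemidef := by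
  have hcov := covOn_alpha hα
  have hh : P272.K.IsHermitian fun e z => w e z + vecMulVec (α e z) (star (α e z)) :=
    { smooth := fun e x h i j => (hw.smooth e x h i j).add
        ((hcov.smooth e x h (mem_univ _) i).mul
          (Complex.conjCLE.contDiff.contDiffAt.comp _ (hcov.smooth e x h (mem_univ _) j)))
      posDef := fun e x h => (hw.posDef e x h).add_posSemidef
        (Matrix.posSemidef_vecMulVec_self_star _)
      change := fun e e' x h h' => by
        show w e (e x) + vecMulVec (α e (e x)) (star (α e (e x))) =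
          _ * (w e' (e' x) + vecMulVec (α e' (e' x)) (star (α e' (e' x)))) * _
        rw [Matrix.mul_add, Matrix.add_mul, ← hw.change e e' x h h',
          hcov.change e e' x h h' (mem_univ _)]
        congr 1
        rw [Matrix.mul_vecMulVec, Matrix.vecMulVec_mul, Matrix.star_mulVec]
        congr 2 }
  obtain ⟨B, hB, h⟩ := exists_comparison hw.toIsHermitian hh
  refine ⟨B, hB.le, fun e x hx => ?_⟩
  have h1 := (h e x hx).add (hw.posDef e x hx).posSemidef
  have h2 : (B : ℂ) • w e (e x) - (w e (e x) + vecMulVec (α e (e x)) (star (α e (e x)))) +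
      w e (e x) = (B : ℂ) • w e (e x) - vecMulVec (α e (e x)) (star (α e (e x))) := by abel
  rw [← h2]
  exact h1

/-- the volume -/
lemma vol_WJ (hw : IsKahler w) (hZ : IsClosed Z) (hu : IsPot Z w ρ C u) (J : ℝ) :
    INT.intX (fun e z => (WJ w C₀ Z u J e z).det.re) =
      INT.intX (fun (e : Chart n X) z => ((((C₀ + 1 : ℝ) : ℂ)) • w e z).det.re) :=
  INT.intX_det_add_cHess ((INT.IsKahler.isClosedForm hw).smul _) (uJ_smooth hZ hu J)

/-- the density of the energy of the truncated potential -/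
def eD (w : Chart n X → Cm n → Matrix (Fin n) (Fin n) ℂ) (C₀ : ℝ) (Z : Set X) (u : X → ℝ) (J : ℝ)
    (e : Chart n X) (z : Cm n) : ℝ :=
  (star (gr (uJ Z u J) e z) ⬝ᵥ (WJ w C₀ Z u J e z).adjugate *ᵥ gr (uJ Z u J) e z).re

omit [T2Space X] [CompactSpace X] in
lemma eD_dens (hw : IsKahler w) (hZ : IsClosed Z) (hu : IsPot Z w ρ C u) (J : ℝ) :
    INT.IsDensity (eD w C₀ Z u J) := by
  have hcl := WJ_closed (C₀ := C₀) hw hZ hu J
  have hco := covOn_gr (uJ_smooth (n := n) hZ hu J)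
  have := dens_pair (U := univ) (A := fun e z => (WJ w C₀ Z u J e z).adjugate)
    (a := gr (uJ Z u J)) (g := fun _ => 1)
    (fun e x h _ i j => (contDiffAt_adj (hcl.smooth e x h) i j).continuousAt)
    (fun e e' x h h' _ α β => by
      show _ ⬝ᵥ (WJ w C₀ Z u J e (e x)).adjugate *ᵥ _ = _
      rw [hcl.form e e' x h h', adj_pair_change])
    (fun e x h _ i => (hco.smooth e x h (mem_univ _) i).continuousAt)
    (fun e e' x h h' _ => hco.change e e' x h h' (mem_univ _))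
    (fun x _ => continuousAt_const) (fun x hx => absurd (mem_univ x) hx)
  simp only [one_mul] at this
  exact this

lemma energy_le (hw : IsKahler w) (hZ : IsClosed Z) (hρ : IsRho Z s ρ) (hu : IsPot Z w ρ C u)
    (h0 : 0 ≤ C₀) (hC : C ≤ C₀) {M J : ℝ} (hM : ∀ x ∉ Z, u x ≤ M) (hJ : 0 ≤ M + J) :
    INT.intX (eD w C₀ Z u J) ≤ (M + J) * ((C₀ + 1) * n) *
      INT.intX (fun (e : Chart n X) z => ((((C₀ + 1 : ℝ) : ℂ)) • w e z).det.re) := by
  have hcl := WJ_closed (C₀ := C₀) hw hZ hu J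
  have hco := covOn_gr (uJ_smooth (n := n) hZ hu J)
  have hib := gibp isOpen_univ (closedOn_of hcl univ) hco (uJ_smooth hZ hu J) (subset_univ _)
  have hid := ibpD_cont isOpen_univ (closedOn_of hcl univ) hco (uJ_smooth hZ hu J) (subset_univ _)
  have hdet := hcl.isDensity
  rw [← vol_WJ (C₀ := C₀) hw hZ hu J, ← INT.intX_const_mul]
  have h1 := INT.intX_mono (eD_dens (C₀ := C₀) hw hZ hu J)
    (hid.add (hdet.const_mul ((M + J) * ((C₀ + 1) * n)))) ?_
  · rw [INT.intX_add hid (hdet.const_mul _), hib, zero_add] at h1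
    exact h1
  · intro e x h
    have hpd := WJ_posDef hw hZ hρ hu h0 hC J h
    have hge := (WJ_ge hw hZ hρ hu h0 hC J h).1
    set W := WJ w C₀ Z u J e (e x) with hW
    have hch : cHess (fun y => uJ Z u J (e.symm y)) (e x) = W - ((C₀ + 1 : ℝ) : ℂ) • w e (e x) := by
      rw [hW]; unfold WJ; abel
    have ht1 : (W.adjugate * W).trace = n * W.det := by
      rw [Matrix.adjugate_mul, Matrix.trace_smul, Matrix.trace_one, smul_eq_mul, Fintype.card_fin,
        mul_comm]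
    have ht2 : 0 ≤ (W.adjugate * w e (e x)).trace.re := by
      have := trace_mul_nonneg (adj_posSemidef hpd) (hw.posDef e x h).posSemidef
      exact (Complex.le_def.1 this).1
    have ht3 : (W.adjugate * w e (e x)).trace.re ≤ n * W.det.re := by
      have := trace_mul_nonneg (adj_posSemidef hpd) hge
      rw [Matrix.mul_sub, Matrix.trace_sub, ht1] at this
      have h2 := (Complex.le_def.1 this).1
      simp only [Complex.zero_re, Complex.sub_re, Complex.mul_re, Complex.natCast_re,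
        Complex.natCast_im, zero_mul, sub_zero] at h2
      linarith
    have hU0 : 0 ≤ uJ Z u J x := uJ_nonneg J x
    have hU1 : uJ Z u J x ≤ M + J := uJ_le hM hJ x
    show eD w C₀ Z u J e (e x) ≤ ibpD (WJ w C₀ Z u J) (gr (uJ Z u J))
      (fun e z => cHess (fun y => uJ Z u J (e.symm y)) z) (uJ Z u J) e (e x) +
      (M + J) * ((C₀ + 1) * n) * W.det.re
    unfold ibpD eD
    beta_reduce
    rw [Complex.add_re, ← hW, hch, e.left_inv h.2, Matrix.mul_sub, Matrix.trace_sub, ht1,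
      Matrix.mul_smul, Matrix.trace_smul, Complex.re_ofReal_mul, Complex.sub_re, smul_eq_mul,
      Complex.re_ofReal_mul]
    simp only [Complex.mul_re, Complex.natCast_re, Complex.natCast_im, zero_mul, sub_zero]
    have hdn : 0 ≤ (n : ℝ) * W.det.re := ht2.trans ht3
    have hc1 : 0 ≤ C₀ + 1 := by linarith
    have e1 : uJ Z u J x * ((C₀ + 1) * (W.adjugate * w e (e x)).trace.re) ≤
        (M + J) * ((C₀ + 1) * (n * W.det.re)) :=
      mul_le_mul hU1 (mul_le_mul_of_nonneg_left ht3 hc1) (mul_nonneg hc1 ht2) hJ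
    have e2 : 0 ≤ uJ Z u J x * (n * W.det.re) := mul_nonneg hU0 hdn
    nlinarith

/-- a nonnegative density, positive somewhere, has a positive integral -/
lemma intX_pos_of {D : Chart n X → Cm n → ℝ} (hD : INT.IsDensity D)
    (h : ∀ e x, At e x → 0 ≤ D e (e x)) {e₀ : Chart n X} {x : X} (h₀ : At e₀ x)
    (hx₀ : 0 < D e₀ (e₀ x)) : 0 < INT.intX D := by
  set P := INT.part n X with hP
  have h1 : ∃ i, 0 < P.ρ i x := by
    by_contra hcon
    push Not at hcon
    have := P.sum x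
    have h2 : ∑ i, P.ρ i x ≤ 0 := Finset.sum_nonpos fun i _ => hcon i
    linarith
  obtain ⟨i, hi⟩ := h1
  have hDn : ∀ j, ∀ z ∈ (P.e j).target, 0 ≤ D (P.e j) z := fun j z hz => by
    have := h (P.e j) ((P.e j).symm z) ⟨P.mem j, (P.e j).map_target hz⟩
    rwa [(P.e j).right_inv hz] at this
  unfold INT.intX
  rw [← hP]
  refine Finset.sum_pos' (fun j _ => ?_) ⟨i, Finset.mem_univ i, ?_⟩
  · exact setIntegral_nonneg (P.e j).open_target.measurableSet fun z hz =>
      mul_nonneg (P.nonneg j _) (hDn j z hz)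
  · have hx : x ∈ (P.e i).source := P.supp i (subset_tsupport _ (by
      simp only [Function.mem_support]; exact hi.ne'))
    have hAt : At (P.e i) x := ⟨P.mem i, hx⟩
    have hDx : 0 < D (P.e i) (P.e i x) := by
      have h3 := hD.change e₀ (P.e i) x h₀ hAt
      rw [h3] at hx₀
      by_contra hcon
      push Not at hcon
      have : D (P.e i) (P.e i x) * ‖(jacM e₀ (P.e i) x).det‖ ^ 2 ≤ 0 :=
        mul_nonpos_of_nonpos_of_nonneg hcon (by positivity)
      linarith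
    have hcD := hD.cont (P.e i) x hAt
    rw [setIntegral_pos_iff_support_of_nonneg_ae]
    · have hopen : ((P.e i).target ∩ (P.e i).symm ⁻¹' {y | 0 < P.ρ i y}) ∩
          {z | 0 < D (P.e i) z} ∈ 𝓝 (P.e i x) := by
        refine inter_mem ?_ (hcD.eventually (lt_mem_nhds hDx))
        have h4 : IsOpen ((P.e i).target ∩ (P.e i).symm ⁻¹' {y | 0 < P.ρ i y}) :=
          (P.e i).isOpen_inter_preimage_symm (isOpen_lt continuous_const (P.cont i))
        refine h4.mem_nhds ⟨(P.e i).map_source hx, ?_⟩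
        change 0 < P.ρ i ((P.e i).symm (P.e i x))
        rw [(P.e i).left_inv hx]; exact hi
      refine (Measure.measure_pos_of_mem_nhds volume hopen).trans_le (measure_mono ?_)
      rintro z ⟨⟨hz1, hz2⟩, hz3⟩
      refine ⟨?_, hz1⟩
      simp only [Function.mem_support]
      exact (mul_pos hz2 hz3).ne'
    · filter_upwards [self_mem_ae_restrict (P.e i).open_target.measurableSet] with z hz
      exact mul_nonneg (P.nonneg i _) (hDn i z hz)
    · exact INT.integrableOn_part P hD i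

omit [IsManifold 𝓘(ℂ, Cm n) ω X] [T2Space X] [CompactSpace X]

/-- Cauchy-Schwarz -/
lemma psd_cs {A : Matrix (Fin n) (Fin n) ℂ} (hA : A.PosSemidef) (a b : Fin n → ℂ) :
    -2 * (star a ⬝ᵥ A *ᵥ b).re ≤ (star a ⬝ᵥ A *ᵥ a).re + (star b ⬝ᵥ A *ᵥ b).re := by
  have h1 := (Complex.le_def.1 (hA.dotProduct_mulVec_nonneg (a + b))).1
  have h2 : star b ⬝ᵥ A *ᵥ a = conj (star a ⬝ᵥ A *ᵥ b) := by
    have h3 : conj (star a ⬝ᵥ A *ᵥ b) = star (star a ⬝ᵥ A *ᵥ b) := rfl
    rw [h3, ← Matrix.star_dotProduct_star, star_star, Matrix.star_mulVec, hA.1.eq, dotProduct_comm,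
      ← Matrix.dotProduct_mulVec, dotProduct_comm]
  rw [star_add, Matrix.mulVec_add, add_dotProduct, dotProduct_add, dotProduct_add, h2] at h1
  simp only [Complex.zero_re, Complex.add_re, Complex.conj_re] at h1
  linarith

lemma psd_re {A : Matrix (Fin n) (Fin n) ℂ} (hA : A.PosSemidef) (a : Fin n → ℂ) :
    0 ≤ (star a ⬝ᵥ A *ᵥ a).re := (Complex.le_def.1 (hA.dotProduct_mulVec_nonneg a)).1

lemma psd_le {A A' : Matrix (Fin n) (Fin n) ℂ} (h : (A' - A).PosSemidef) (a : Fin n → ℂ) :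
    (star a ⬝ᵥ A *ᵥ a).re ≤ (star a ⬝ᵥ A' *ᵥ a).re := by
  have := psd_re h a
  rw [Matrix.sub_mulVec, dotProduct_sub, Complex.sub_re] at this
  linarith

/-- `Z` and the cut-offs -/
def fJ (Z : Set X) (u F : X → ℝ) (J : ℝ) : X → ℝ := ext0 Z fun x => chi J (u x) ^ 2 * F x

lemma fJ_zero (hu : IsPot Z w ρ C u) {J : ℝ} (hJ : 0 < J) (F : X → ℝ) :
    ∀ x ∈ Z, ∀ᶠ y in 𝓝 x, fJ Z u F J y = 0 :=
  ext0_zero (A := -2 * J) hu.lim fun x hx => by rw [chi_zero hJ hx]; simp

lemma fJ_smooth (hZ : IsClosed Z) (hu : IsPot Z w ρ C u) {J : ℝ} (hJ : 0 < J) {F : X → ℝ}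
    (hF : ∀ (e : Chart n X) x, At e x → x ∉ Z → ContDiffAt ℝ ∞ (fun z => F (e.symm z)) (e x)) :
    SmoothFn (n := n) (fJ Z u F J) := by
  refine smoothFn_of (fun e x h hx => ?_) (fJ_zero hu hJ F)
  refine ContDiffAt.congr_of_eventuallyEq ?_ (ext0_near hZ h hx)
  exact (((chi_contDiff J).contDiffAt.comp (e x) (hu.smooth e x h hx)).pow 2).mul (hF e x h hx)

lemma gr_fJ (hZ : IsClosed Z) (hu : IsPot Z w ρ C u) {J : ℝ} {F : X → ℝ}
    (hF : ∀ (e : Chart n X) x, At e x → x ∉ Z → ContDiffAt ℝ ∞ (fun z => F (e.symm z)) (e x))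
    {e : Chart n X} {x : X} (h : At e x) (hx : x ∉ Z) :
    gr (fJ Z u F J) e (e x) = ((2 * chi J (u x) * deriv (chi J) (u x) * F x : ℝ) : ℂ) •
      gr u e (e x) + ((chi J (u x) ^ 2 : ℝ) : ℂ) • gr F e (e x) := by
  funext j
  have hus := (hu.smooth e x h hx).differentiableAt (by simp)
  have hFs := (hF e x h hx).differentiableAt (by simp)
  have h1 : (fun y => (fJ Z u F J (e.symm y) : ℂ)) =ᶠ[𝓝 (e x)] fun y =>
      (((fun t => chi J t ^ 2) (u (e.symm y)) : ℝ) : ℂ) * (F (e.symm y) : ℂ) := by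
    filter_upwards [ext0_near (f := fun x => chi J (u x) ^ 2 * F x) hZ h hx] with y hy
    show ((ext0 Z (fun x => chi J (u x) ^ 2 * F x) (e.symm y) : ℝ) : ℂ) = _
    rw [hy]; push_cast; rfl
  have hφ : DifferentiableAt ℝ (fun t => chi J t ^ 2) (u (e.symm (e x))) :=
    (((chi_contDiff J).pow 2).differentiable (by simp)) _
  have h2' : DifferentiableAt ℝ (fun y => (fun t => chi J t ^ 2) (u (e.symm y))) (e x) :=
    DifferentiableAt.comp (g := fun t => chi J t ^ 2) (f := fun y => u (e.symm y)) (e x) hφ hus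
  have h2 : DifferentiableAt ℝ (fun y => (((fun t => chi J t ^ 2) (u (e.symm y)) : ℝ) : ℂ)) (e x) :=
    AMP.ofReal_diff h2'
  have h3 : DifferentiableAt ℝ (fun y => (F (e.symm y) : ℂ)) (e x) :=
    Complex.ofRealCLM.differentiableAt.comp _ hFs
  have h4 : deriv (fun t => chi J t ^ 2) (u x) = 2 * chi J (u x) * deriv (chi J) (u x) := by
    have := ((((chi_contDiff J).differentiable (by simp)) (u x)).hasDerivAt.fun_pow 2).deriv
    rw [this]; simp
  show dz j (fun y => (fJ Z u F J (e.symm y) : ℂ)) (e x) = _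
  rw [INT.dz_congr h1, INT.dz_mul h2 h3,
    AMP.dz_real_comp (φ := fun t => chi J t ^ 2) (f := fun y => u (e.symm y)) hφ hus, e.left_inv h.2,
    h4]
  simp only [Pi.add_apply, Pi.smul_apply, smul_eq_mul, gr]
  push_cast
  ring

lemma gr_uJ (hZ : IsClosed Z) (hu : IsPot Z w ρ C u) {J : ℝ}
    {e : Chart n X} {x : X} (h : At e x) (hx : x ∉ Z) (h1 : 1 ≤ u x + J) :
    gr (uJ Z u J) e (e x) = gr u e (e x) := by
  funext j
  have hus := (hu.smooth e x h hx).differentiableAt (by simp)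
  have h2 : (fun y => (uJ Z u J (e.symm y) : ℂ)) =ᶠ[𝓝 (e x)] fun y =>
      (((fun t => kap (t + J)) (u (e.symm y)) : ℝ) : ℂ) := by
    filter_upwards [ext0_near (f := fun x => kap (u x + J)) hZ h hx] with y hy
    show ((ext0 Z (fun x => kap (u x + J)) (e.symm y) : ℝ) : ℂ) = _
    rw [hy]
  show dz j (fun y => (uJ Z u J (e.symm y) : ℂ)) (e x) = _
  rw [INT.dz_congr h2, AMP.dz_real_comp (φ := fun t => kap (t + J)) (f := fun y => u (e.symm y))
    (((contDiff_kapJ J).differentiable (by simp)) _) hus, e.left_inv h.2, deriv_kap_add,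
    Real.smoothTransition.one_of_one_le h1]
  simp [gr]

/-- the density `(star α ⬝ᵥ coA *ᵥ ∂f)` as a combination of integrations by parts -/
lemma D0_eq (e : Chart n X) (z : Cm n) (f : X → ℝ) :
    ∑ m : Fin (n + 1), cf n s m * ibpD (fun e z => w e z + (((m : ℕ) : ℝ) : ℂ) • ρ e z) α
      (fun _ _ => 0) f e z = (star (α e z) ⬝ᵥ coA s (w e z) (ρ e z) *ᵥ gr f e z).re := by
  unfold ibpD coA
  rw [Matrix.sum_mulVec, dotProduct_sum, Complex.re_sum]
  refine Finset.sum_congr rfl fun m _ => ?_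
  rw [Matrix.smul_mulVec, dotProduct_smul, smul_eq_mul, Complex.re_ofReal_mul]
  simp

lemma coA_cont [IsManifold 𝓘(ℂ, Cm n) ω X] (hw : IsKahler w) (hρ : IsRho Z s ρ) {e : Chart n X}
    {x : X} (h : At e x) (hx : x ∉ Z) (i j : Fin n) :
    ContinuousAt (fun z => coA s (w e z) (ρ e z) i j) (e x) := by
  unfold coA
  simp only [Matrix.sum_apply, Matrix.smul_apply, smul_eq_mul]
  refine tendsto_finsetSum _ fun m _ => ContinuousAt.mul continuousAt_const ?_
  exact (contDiffAt_adj ((closedOn_add hw hρ (((m : ℕ) : ℝ) : ℂ)).smooth e x h hx) i j).continuousAt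

lemma coA_change [IsManifold 𝓘(ℂ, Cm n) ω X] (hw : IsKahler w) (hρ : IsRho Z s ρ)
    {e e' : Chart n X} {x : X} (h : At e x) (h' : At e' x) (hx : x ∉ Z) (a b : Fin n → ℂ) :
    star ((jacM e e' x)ᵀ *ᵥ a) ⬝ᵥ coA s (w e (e x)) (ρ e (e x)) *ᵥ ((jacM e e' x)ᵀ *ᵥ b) =
      ((‖(jacM e e' x).det‖ ^ 2 : ℝ) : ℂ) *
        (star a ⬝ᵥ coA s (w e' (e' x)) (ρ e' (e' x)) *ᵥ b) := by
  unfold coA
  rw [Matrix.sum_mulVec, dotProduct_sum, Matrix.sum_mulVec, dotProduct_sum, Finset.mul_sum]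
  refine Finset.sum_congr rfl fun m _ => ?_
  have := (closedOn_add hw hρ (((m : ℕ) : ℝ) : ℂ)).change e e' x h h' hx
  rw [Matrix.smul_mulVec, dotProduct_smul, Matrix.smul_mulVec, dotProduct_smul, this,
    adj_pair_change]
  simp only [smul_eq_mul]
  ring

lemma u_cont {e : Chart n X} {x : X} (h : At e x) {f : X → ℝ}
    (hf : ContDiffAt ℝ ∞ (fun z => f (e.symm z)) (e x)) : ContinuousAt f x := by
  have h1 : ContinuousAt (fun y => f (e.symm (e y))) x :=
    hf.continuousAt.comp (f := e) (e.continuousAt h.2)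
  refine h1.congr ?_
  filter_upwards [e.open_source.mem_nhds h.2] with y hy
  rw [e.left_inv hy]

lemma ineq1 {χ χ' f Q Pa Pu η : ℝ} (hη : 0 < η) (hcs : -2 * (η * χ * (2 * χ' * f * Q)) ≤
    η * χ * (η * χ * Pa) + 2 * χ' * f * (2 * χ' * f * Pu)) :
    -(2 * χ * χ' * f * Q) ≤ η / 2 * (χ ^ 2 * Pa) + 2 / η * (χ' ^ 2 * f ^ 2 * Pu) := by
  have e5 : η / 2 * (χ ^ 2 * Pa) + 2 / η * (χ' ^ 2 * f ^ 2 * Pu) =
      (η ^ 2 * (χ ^ 2 * Pa) + 4 * (χ' ^ 2 * f ^ 2 * Pu)) / (2 * η) := by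
    field_simp
    ring
  rw [e5, le_div_iff₀ (by positivity)]
  linarith

/-- the pointwise inequality -/
lemma pt_ineq {F G : X → ℝ} {B Bα J L η : ℝ} (hw : IsKahler w) (hZ : IsClosed Z)
    (hρ : IsRho Z s ρ) (hu : IsPot Z w ρ C u) (h0 : 0 ≤ C₀) (hC : C ≤ C₀) (hBα : 0 ≤ Bα)
    (hα' : ∀ (e : Chart n X) x, At e x →
      ((Bα : ℂ) • w e (e x) - vecMulVec (α e (e x)) (star (α e (e x)))).PosSemidef)
    (hJ0 : 0 < J) (hη : 0 < η) {e : Chart n X} {x : X}
    (hL : |deriv Real.smoothTransition (u x / J + 2)| ≤ L) (hF : |F x| ≤ B)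
    (hFs : ∀ (e : Chart n X) x, At e x → x ∉ Z → ContDiffAt ℝ ∞ (fun z => F (e.symm z)) (e x))
    (h : At e x) (hx : x ∉ Z) (h3 : 1 ≤ u x + 3 * J)
    (hrel : ∀ ξ : Cm n, (∀ k, ∑ j, ρ e (e x) j k * ξ j = 0) →
      ∑ j, dz j (fun z => (F (e.symm z) : ℂ)) (e x) * ξ j = (G x : ℂ) * ∑ j, α e (e x) j * ξ j)
    {dg d0 : ℝ} (hdg : dg = chi J (u x) ^ 2 * G x *
      (star (α e (e x)) ⬝ᵥ coA s (w e (e x)) (ρ e (e x)) *ᵥ α e (e x)).re)
    (hd0 : d0 = (star (α e (e x)) ⬝ᵥ coA s (w e (e x)) (ρ e (e x)) *ᵥ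
          gr (fJ Z u F J) e (e x)).re) :
    dg ≤ d0 + η / 2 * Bα * (WJ w C₀ Z u (3 * J) e (e x)).det.re +
        2 / η * (B ^ 2 * (L / J) ^ 2) * eD w C₀ Z u (3 * J) e (e x) := by
  have hgrf := gr_fJ (J := J) (F := F) hZ hu hFs h hx
  set A := coA s (w e (e x)) (ρ e (e x)) with hA
  set W := WJ w C₀ Z u (3 * J) e (e x) with hW
  have hApsd : A.PosSemidef := coA_posSemidef (hw.posDef e x h) (hρ.psd e x h hx) s
  have hAle : (W.adjugate - A).PosSemidef := coA_le (hw.posDef e x h) (hρ.psd e x h hx) s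
    ((WJ_ge hw hZ hρ hu h0 hC (3 * J) h).2 hx h3)
  have hWpd := WJ_posDef hw hZ hρ hu h0 hC (3 * J) h
  set χ := chi J (u x) with hχ
  set χ' := deriv (chi J) (u x) with hχ'
  have hχ0 : 0 ≤ χ := chi_nonneg _ _
  have hχ1 : χ ≤ 1 := chi_le_one _ _
  have hχ'b : χ' ^ 2 ≤ (L / J) ^ 2 := by
    rw [hχ', deriv_chi, ← sq_abs]
    refine pow_le_pow_left₀ (abs_nonneg _) ?_ 2
    rw [abs_div, abs_of_pos hJ0]
    exact div_le_div_of_nonneg_right hL hJ0.le
  -- `A ∂F = G A α`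
  have hAF : A *ᵥ gr F e (e x) = (G x : ℂ) • A *ᵥ α e (e x) := by
    have h4 := coA_mulVec_eq_zero (hw.posDef e x h) (hρ.psd e x h hx) (hρ.rank e x h hx)
      (β := gr F e (e x) - (G x : ℂ) • α e (e x)) (fun ζ hζ => by
        have := hrel ζ hζ
        simp only [Pi.sub_apply, Pi.smul_apply, smul_eq_mul, sub_mul,
          Finset.sum_sub_distrib]
        rw [Finset.mul_sum] at this
        rw [sub_eq_zero]
        simp only [gr]
        rw [this]
        exact Finset.sum_congr rfl fun j _ => by ring)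
    rw [Matrix.mulVec_sub, Matrix.mulVec_smul, sub_eq_zero] at h4
    exact h4
  set Pa := (star (α e (e x)) ⬝ᵥ A *ᵥ α e (e x)).re with hPa
  set Pu := (star (gr u e (e x)) ⬝ᵥ A *ᵥ gr u e (e x)).re with hPu
  set Q := (star (α e (e x)) ⬝ᵥ A *ᵥ gr u e (e x)).re with hQ
  have hPan : 0 ≤ Pa := psd_re hApsd _
  have hPun : 0 ≤ Pu := psd_re hApsd _
  have hD0' : d0 = 2 * χ * χ' * F x * Q + χ ^ 2 * G x * Pa := by
    rw [hd0, hgrf, Matrix.mulVec_add, Matrix.mulVec_smul, Matrix.mulVec_smul, hAF,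
      dotProduct_add, dotProduct_smul, dotProduct_smul, dotProduct_smul, Complex.add_re]
    simp only [smul_eq_mul, Complex.re_ofReal_mul]
    ring
  have hcs := psd_cs hApsd (((η * χ : ℝ) : ℂ) • α e (e x))
    (((2 * χ' * F x : ℝ) : ℂ) • gr u e (e x))
  have hst : ∀ (r : ℝ) (a : Fin n → ℂ), star ((r : ℂ) • a) = (r : ℂ) • star a := by
    intro r a
    rw [star_smul, RCLike.star_def, Complex.conj_ofReal]
  simp only [hst, Matrix.mulVec_smul, dotProduct_smul, smul_dotProduct, smul_eq_mul,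
    Complex.re_ofReal_mul, ← hPa, ← hPu, ← hQ] at hcs
  have hF2 : F x ^ 2 ≤ B ^ 2 := by
    rw [← sq_abs (F x)]
    exact pow_le_pow_left₀ (abs_nonneg _) hF 2
  have hPaW : Pa ≤ Bα * W.det.re := by
    refine (psd_le hAle _).trans (adj_form_le hWpd hBα ?_)
    have h5 := (hα' e x h).add (smul_psd (WJ_ge hw hZ hρ hu h0 hC (3 * J) h).1 hBα)
    have h6 : (Bα : ℂ) • w e (e x) - vecMulVec (α e (e x)) (star (α e (e x))) +
        (Bα : ℂ) • (W - w e (e x)) =
        (Bα : ℂ) • W - vecMulVec (α e (e x)) (star (α e (e x))) := by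
      rw [smul_sub]; abel
    rwa [h6] at h5
  have hPuW : Pu ≤ eD w C₀ Z u (3 * J) e (e x) := by
    unfold eD
    rw [gr_uJ hZ hu h hx h3]
    exact psd_le hAle _
  -- combine
  have e3 : -(2 * χ * χ' * F x * Q) ≤ η / 2 * (χ ^ 2 * Pa) +
      2 / η * (χ' ^ 2 * F x ^ 2 * Pu) := ineq1 hη (by linarith)
  have e6 : χ ^ 2 * Pa ≤ Bα * W.det.re := by
    have : χ ^ 2 ≤ 1 := pow_le_one₀ hχ0 hχ1
    exact (mul_le_of_le_one_left hPan this).trans hPaW
  have e7 : χ' ^ 2 * F x ^ 2 * Pu ≤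
      B ^ 2 * (L / J) ^ 2 * eD w C₀ Z u (3 * J) e (e x) := by
    have h8 : χ' ^ 2 * F x ^ 2 ≤ (L / J) ^ 2 * B ^ 2 :=
      mul_le_mul hχ'b hF2 (sq_nonneg _) (sq_nonneg _)
    calc χ' ^ 2 * F x ^ 2 * Pu ≤ ((L / J) ^ 2 * B ^ 2) * Pu :=
          mul_le_mul_of_nonneg_right h8 hPun
      _ ≤ ((L / J) ^ 2 * B ^ 2) * eD w C₀ Z u (3 * J) e (e x) :=
          mul_le_mul_of_nonneg_left hPuW (by positivity)
      _ = _ := by ring
  rw [hdg, hD0']
  have e8 := mul_le_mul_of_nonneg_left e6 (by positivity : 0 ≤ η / 2)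
  have e9 := mul_le_mul_of_nonneg_left e7 (by positivity : 0 ≤ 2 / η)
  have e10 : η / 2 * Bα * W.det.re = η / 2 * (Bα * W.det.re) := by ring
  have e11 : 2 / η * (B ^ 2 * (L / J) ^ 2) * eD w C₀ Z u (3 * J) e (e x) =
    2 / η * (B ^ 2 * (L / J) ^ 2 * eD w C₀ Z u (3 * J) e (e x)) := by ring
  rw [e10, e11]
  linarith

end

/-- the limit `J → ∞` -/
lemma lim_zero {a b I c B L M J₀ : ℝ} (hb : 0 ≤ b) (hI : 0 ≤ I) (hM : 0 ≤ M) (hc : 0 ≤ c)
    (h : ∀ J : ℝ, J₀ ≤ J → 1 ≤ J → ∀ η : ℝ, 0 < η → a ≤ (η / 2 * b) * I +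
      (2 / η * (B ^ 2 * (L / J) ^ 2)) * ((M + 3 * J) * c * I)) : a ≤ 0 := by
  by_contra hcon
  push Not at hcon
  set K : ℝ := c * I with hK
  have hKn : 0 ≤ K := mul_nonneg hc hI
  set η : ℝ := a / (2 * (b * I + 1)) with hη
  have hd : 0 < b * I + 1 := by have := mul_nonneg hb hI; linarith
  have hη0 : 0 < η := by positivity
  set T : ℝ := 2 / η * (B ^ 2 * L ^ 2) * (M + 3) * K with hT
  have hTn : 0 ≤ T := by positivity
  set J : ℝ := max (max J₀ 1) (4 * T / a) with hJ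
  have hJ1 : 1 ≤ J := (le_max_right _ _).trans (le_max_left _ _)
  have hJ0 : 0 < J := by linarith
  have hJJ : J₀ ≤ J := (le_max_left _ _).trans (le_max_left _ _)
  have hJT : 4 * T / a ≤ J := le_max_right _ _
  have h1 := h J hJJ hJ1 η hη0
  have h2 : η / 2 * b * I ≤ a / 4 := by
    have : η / 2 * b * I = (a / 4) * (b * I / (b * I + 1)) := by
      rw [hη]; field_simp; ring
    rw [this]
    have h3 : b * I / (b * I + 1) ≤ 1 := by rw [div_le_one hd]; linarith
    exact mul_le_of_le_one_right (by linarith) h3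
  have h3 : (2 / η * (B ^ 2 * (L / J) ^ 2)) * ((M + 3 * J) * c * I) ≤ T / J := by
    have e1 : (2 / η * (B ^ 2 * (L / J) ^ 2)) * ((M + 3 * J) * c * I) =
        (2 / η * (B ^ 2 * L ^ 2) * K) * ((M + 3 * J) / J ^ 2) := by
      rw [hK]; field_simp
    have e2 : T / J = (2 / η * (B ^ 2 * L ^ 2) * K) * ((M + 3) / J) := by
      rw [hT]; field_simp
    rw [e1, e2]
    refine mul_le_mul_of_nonneg_left ?_ (by positivity)
    rw [div_le_div_iff₀ (by positivity) hJ0]
    have e3 : 0 ≤ M * (J * (J - 1)) := mul_nonneg hM (mul_nonneg hJ0.le (by linarith))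
    nlinarith
  have h4 : T / J ≤ a / 4 := by
    rw [div_le_iff₀ hJ0]
    have := (div_le_iff₀ hcon).1 hJT
    linarith
  linarith

theorem stkA : StkAStmt := by
  intro n X _ _ _ _ _ w hw Z hZ s ρ hρ C u hu α hα F G B hF hG hFs hGc hrel e₀ x₀ h₀ hx₀ hrank
    hGpos ξ hξ
  set C₀ := max C 0 with hC₀
  have h0 : 0 ≤ C₀ := le_max_right _ _
  have hC : C ≤ C₀ := le_max_left _ _
  obtain ⟨M, hM0, hM⟩ := exists_sup hZ hu
  obtain ⟨Bα, hBα, hα'⟩ := exists_alpha_bd hw hα
  obtain ⟨L, hL0, hL⟩ := exists_bd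
  have hB0 : 0 ≤ B := (abs_nonneg _).trans (hF x₀)
  have hcov := (covOn_alpha hα).mono (subset_univ Zᶜ)
  have hAt : ∀ x : X, At (chartAt (Cm n) x) x := fun x =>
    ⟨chart_mem_atlas _ x, mem_chart_source _ x⟩
  have huc : ∀ x ∉ Z, ContinuousAt u x := fun x hx => u_cont (hAt x) (hu.smooth _ x (hAt x) hx)
  -- the densities
  set DG : ℝ → Chart n X → Cm n → ℝ := fun J e z =>
    fJ Z u G J (e.symm z) * (star (α e z) ⬝ᵥ coA s (w e z) (ρ e z) *ᵥ α e z).re with hDG
  have hDGd : ∀ J, 0 < J → INT.IsDensity (DG J) := by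
    intro J hJ
    refine dens_pair (U := Zᶜ) (A := fun e z => coA s (w e z) (ρ e z)) (a := α)
      (fun e x h hx i j => coA_cont hw hρ h hx i j)
      (fun e e' x h h' hx a b => coA_change hw hρ h h' hx a b)
      (fun e x h hx i => (hcov.smooth e x h hx i).continuousAt)
      (fun e e' x h h' hx => hcov.change e e' x h h' hx) ?_ ?_
    · intro x hx
      have h1 : ContinuousAt (fun x => chi J (u x) ^ 2 * G x) x :=
        (((chi_contDiff J).continuous.continuousAt.comp (huc x hx)).pow 2).mul (hGc x hx)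
      refine h1.congr ?_
      filter_upwards [hZ.isOpen_compl.mem_nhds hx] with y hy
      exact (ext0_of_notMem (f := fun x => chi J (u x) ^ 2 * G x) hy).symm
    · intro x hx
      exact fJ_zero hu hJ G x (not_not.1 hx)
  have hPn : ∀ (e : Chart n X) x, At e x → x ∉ Z → ∀ a : Fin n → ℂ,
      0 ≤ (star a ⬝ᵥ coA s (w e (e x)) (ρ e (e x)) *ᵥ a).re := fun e x h hx a =>
    psd_re (coA_posSemidef (hw.posDef e x h) (hρ.psd e x h hx) s) a
  have hDGn : ∀ J, ∀ (e : Chart n X) x, At e x → 0 ≤ DG J e (e x) := by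
    intro J e x h
    simp only [hDG, e.left_inv h.2]
    by_cases hx : x ∈ Z
    · rw [fJ, ext0_of_mem hx, zero_mul]
    · rw [fJ, ext0_of_notMem hx]
      exact mul_nonneg (mul_nonneg (sq_nonneg _) (hG x)) (hPn e x h hx _)
  set I₀ : ℝ := INT.intX (fun (e : Chart n X) z => ((((C₀ + 1 : ℝ) : ℂ)) • w e z).det.re) with hI₀
  have hI₀n : 0 ≤ I₀ := by
    refine INT.intX_nonneg fun e x h => ?_
    have := (hw.posDef e x h).smul (a := ((C₀ + 1 : ℝ) : ℂ))
      (by exact_mod_cast (by linarith : 0 < C₀ + 1))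
    exact (Complex.lt_def.1 this.det_pos).1.le
  have hWd : ∀ J (e : Chart n X) x, At e x → 0 ≤ (WJ w C₀ Z u J e (e x)).det.re :=
    fun J e x h => (Complex.lt_def.1 (WJ_posDef hw hZ hρ hu h0 hC J h).det_pos).1.le
  have hEn : ∀ J (e : Chart n X) x, At e x → 0 ≤ eD w C₀ Z u J e (e x) := fun J e x h =>
    psd_re (adj_posSemidef (WJ_posDef hw hZ hρ hu h0 hC J h)) _
  -- the main inequality
  have key : ∀ J : ℝ, 1 ≤ J → ∀ η : ℝ, 0 < η → INT.intX (DG J) ≤
      (η / 2 * Bα) * I₀ + (2 / η * (B ^ 2 * (L / J) ^ 2)) *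
        ((M + 3 * J) * ((C₀ + 1) * n) * I₀) := by
    intro J hJ η hη
    have hJ0 : 0 < J := by linarith
    set D0 : Chart n X → Cm n → ℝ := fun e z => ∑ m : Fin (n + 1), cf n s m *
      ibpD (fun e z => w e z + (((m : ℕ) : ℝ) : ℂ) • ρ e z) α (fun _ _ => 0) (fJ Z u F J) e z
      with hD0
    have hsm := fJ_smooth (F := F) hZ hu hJ0 hFs
    have hts := tsupport_of (fJ_zero hu hJ0 F)
    have hD0d : INT.IsDensity D0 := by
      refine INT.IsDensity.sum _ fun m _ => INT.IsDensity.const_mul ?_ _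
      exact ibpD_cont hZ.isOpen_compl (closedOn_add hw hρ _) hcov hsm hts
    have hD0i : INT.intX D0 = 0 := by
      rw [hD0, INT.intX_sum _ fun m _ => INT.IsDensity.const_mul
        (ibpD_cont hZ.isOpen_compl (closedOn_add hw hρ _) hcov hsm hts) _]
      refine Finset.sum_eq_zero fun m _ => ?_
      rw [INT.intX_const_mul, gibp hZ.isOpen_compl (closedOn_add hw hρ _) hcov hsm hts, mul_zero]
    have hdet := (WJ_closed (C₀ := C₀) hw hZ hu (3 * J)).isDensity
    have heD := eD_dens (C₀ := C₀) hw hZ hu (3 * J)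
    have h1 := INT.intX_mono (hDGd J hJ0) ((hD0d.add (hdet.const_mul (η / 2 * Bα))).add
      (heD.const_mul (2 / η * (B ^ 2 * (L / J) ^ 2)))) ?_
    · rw [INT.intX_add (hD0d.add (hdet.const_mul _)) (heD.const_mul _),
        INT.intX_add hD0d (hdet.const_mul _), hD0i, zero_add, INT.intX_const_mul,
        INT.intX_const_mul, vol_WJ hw hZ hu] at h1
      refine h1.trans (add_le_add le_rfl (mul_le_mul_of_nonneg_left ?_ (by positivity)))
      exact energy_le hw hZ hρ hu h0 hC hM (by linarith)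
    · intro e x h
      show DG J e (e x) ≤ D0 e (e x) + η / 2 * Bα * (WJ w C₀ Z u (3 * J) e (e x)).det.re +
        2 / η * (B ^ 2 * (L / J) ^ 2) * eD w C₀ Z u (3 * J) e (e x)
      have hn1 : 0 ≤ η / 2 * Bα * (WJ w C₀ Z u (3 * J) e (e x)).det.re :=
        mul_nonneg (by positivity) (hWd _ e x h)
      have hn2 : 0 ≤ 2 / η * (B ^ 2 * (L / J) ^ 2) * eD w C₀ Z u (3 * J) e (e x) :=
        mul_nonneg (by positivity) (hEn _ e x h)
      have hD0x : D0 e (e x) = (star (α e (e x)) ⬝ᵥ coA s (w e (e x)) (ρ e (e x)) *ᵥ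
          gr (fJ Z u F J) e (e x)).re := D0_eq e (e x) _
      by_cases hx : x ∈ Z
      · have e1 : DG J e (e x) = 0 := by
          simp only [hDG, e.left_inv h.2]
          rw [fJ, ext0_of_mem hx, zero_mul]
        have e2 : gr (fJ Z u F J) e (e x) = 0 :=
          (gr_zero h (fun h' => hts h' hx)).self_of_nhds.2
        rw [e1, hD0x, e2]
        simp only [Matrix.mulVec_zero, dotProduct_zero, Complex.zero_re]
        linarith
      · have hgrf := gr_fJ (J := J) (F := F) hZ hu hFs h hx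
        by_cases h3 : 1 ≤ u x + 3 * J
        · refine pt_ineq hw hZ hρ hu h0 hC hBα hα' hJ0 hη (hL _) (hF x) hFs h hx h3
            (hrel e x h hx) ?_ hD0x
          simp only [hDG, e.left_inv h.2]
          rw [fJ, ext0_of_notMem hx]
        · have h4 : u x < -2 * J := by linarith
          have e1 : chi J (u x) = 0 := chi_zero hJ0 h4.le
          have e2 : DG J e (e x) = 0 := by
            simp only [hDG, e.left_inv h.2]
            rw [fJ, ext0_of_notMem hx, e1]; simp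
          have e3 : gr (fJ Z u F J) e (e x) = 0 := by rw [hgrf, e1]; simp
          rw [e2, hD0x, e3]
          simp only [Matrix.mulVec_zero, dotProduct_zero, Complex.zero_re]
          linarith
  -- monotonicity in `J`
  have hmono : ∀ J₁ J₂ : ℝ, 0 < J₁ → J₁ ≤ J₂ → INT.intX (DG J₁) ≤ INT.intX (DG J₂) := by
    intro J₁ J₂ h1 h12
    refine INT.intX_mono (hDGd J₁ h1) (hDGd J₂ (h1.trans_le h12)) fun e x h => ?_
    simp only [hDG, e.left_inv h.2]
    by_cases hx : x ∈ Z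
    · simp only [fJ, ext0_of_mem hx, zero_mul, le_refl]
    · simp only [fJ, ext0_of_notMem hx]
      refine mul_le_mul_of_nonneg_right (mul_le_mul_of_nonneg_right ?_ (hG x)) (hPn e x h hx _)
      exact pow_le_pow_left₀ (chi_nonneg _ _) (chi_mono h1 h12 _) 2
  -- the integral vanishes
  have hzero : ∀ J₀ : ℝ, 0 < J₀ → INT.intX (DG J₀) ≤ 0 := fun J₀ hJ₀ =>
    lim_zero hBα hI₀n hM0 (by positivity : 0 ≤ (C₀ + 1) * n) fun J hJ₀J hJ1 η hη =>
      (hmono J₀ J hJ₀ hJ₀J).trans (key J hJ1 η hη)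
  -- conclusion
  by_contra hne
  set J₀ : ℝ := max 1 (-u x₀) with hJ₀
  have hJ₀1 : 1 ≤ J₀ := le_max_left _ _
  have hJ₀u : -J₀ ≤ u x₀ := by have := le_max_right 1 (-u x₀); linarith
  have hpos : 0 < (star (α e₀ (e₀ x₀)) ⬝ᵥ coA s (w e₀ (e₀ x₀)) (ρ e₀ (e₀ x₀)) *ᵥ
      α e₀ (e₀ x₀)).re := by
    refine lt_of_le_of_ne (hPn e₀ x₀ h₀ hx₀ _) fun h0' => hne ?_
    refine coA_nondeg (hw.posDef e₀ x₀ h₀) (hρ.psd e₀ x₀ h₀ hx₀) hrank ?_ hξ
    have h1 := (coA_posSemidef (hw.posDef e₀ x₀ h₀) (hρ.psd e₀ x₀ h₀ hx₀) s).dotProduct_mulVec_nonneg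
      (α e₀ (e₀ x₀))
    exact Complex.ext h0'.symm (Complex.le_def.1 h1).2.symm
  have h2 := intX_pos_of (hDGd J₀ (by linarith)) (hDGn J₀) h₀ (by
    simp only [hDG, e₀.left_inv h₀.2]
    rw [fJ, ext0_of_notMem hx₀, chi_one (by linarith) hJ₀u]
    exact mul_pos (by simpa using hGpos) hpos)
  exact absurd (hzero J₀ (by linarith)) (not_le.2 h2)

end Vale.Agent.P284.H395
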