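import Vale.Agent.P284.H395.StkS
import Vale.Agent.P272.K.AMP.Calc
import Mathlib.Analysis.SpecialFunctions.Trigonometric.ArctanDeriv
import Mathlib.Topology.Covering.Basic

/-!
# P284 (helper395), C-STK: sums over cosets
-/

open scoped Manifold ContDiff Topology ComplexConjugate
open Filter Set

noncomputable section

namespace Vale.Agent.P284.H395

open Vale.Agent.P272.K Vale.Agent.P284.H894.G

section
variable {X E Γ : Type} [TopologicalSpace X] [TopologicalSpace E] [Group Γ] [MulAction Γ E]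
  {p : E → X} {Z : Set X} {S : Subgroup Γ}

/-- the sum over the cosets at a point of `E` -/
def cosSum (S : Subgroup Γ) (Φ : E → ℝ) (y : E) : ℝ := ∑ᶠ a : Γ ⧸ S, Φ ((Quotient.out a)⁻¹ • y)

lemma phi_rep (hG : IsGalois Γ p) {Φ : E → ℝ}
    (hS : ∀ g ∈ S, ∀ y, p y ∉ Z → Φ (g • y) = Φ y) {y : E} (hy : p y ∉ Z) (g : Γ) :
    Φ ((Quotient.out (g : Γ ⧸ S))⁻¹ • y) = Φ (g⁻¹ • y) := by
  obtain ⟨s, hs⟩ := QuotientGroup.mk_out_eq_mul S g
  rw [hs, mul_inv_rev, mul_smul]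
  refine hS _ (S.inv_mem s.2) _ ?_
  have : p (g⁻¹ • y) = p y := ((hG.orb y (g⁻¹ • y)).2 ⟨g⁻¹, rfl⟩).symm
  rwa [this]

lemma p_smul (hG : IsGalois Γ p) (g : Γ) (y : E) : p (g • y) = p y :=
  ((hG.orb y (g • y)).2 ⟨g, rfl⟩).symm

lemma cosSum_smul (hG : IsGalois Γ p) {Φ : E → ℝ}
    (hS : ∀ g ∈ S, ∀ y, p y ∉ Z → Φ (g • y) = Φ y) {y : E} (hy : p y ∉ Z) (h : Γ) :
    cosSum S Φ (h • y) = cosSum S Φ y := by
  unfold cosSum
  have hy' : p (h • y) ∉ Z := by rwa [p_smul hG]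
  have key : ∀ a : Γ ⧸ S, Φ ((Quotient.out a)⁻¹ • h • y) =
      Φ ((Quotient.out (h⁻¹ • a))⁻¹ • y) := by
    intro a
    induction a using QuotientGroup.induction_on with
    | H g =>
      rw [phi_rep hG hS hy' g]
      have : (h⁻¹ • (g : Γ ⧸ S)) = ((h⁻¹ * g : Γ) : Γ ⧸ S) := rfl
      rw [this, phi_rep hG hS hy (h⁻¹ * g), mul_inv_rev, inv_inv, mul_smul]
  simp only [key]
  exact finsum_comp_equiv (MulAction.toPerm (h⁻¹ : Γ) : Equiv.Perm (Γ ⧸ S))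
    (f := fun a => Φ ((Quotient.out a)⁻¹ • y))

lemma cosSum_congr (hG : IsGalois Γ p) {Φ : E → ℝ}
    (hS : ∀ g ∈ S, ∀ y, p y ∉ Z → Φ (g • y) = Φ y) {y y' : E} (hy : p y ∉ Z) (h : p y = p y') :
    cosSum S Φ y' = cosSum S Φ y := by
  obtain ⟨g, rfl⟩ := (hG.orb y y').1 h
  exact cosSum_smul hG hS hy g

lemma cosSum_nonneg {Φ : E → ℝ} (h : ∀ y, 0 ≤ Φ y) (y : E) : 0 ≤ cosSum S Φ y :=
  finsum_nonneg fun _ => h _

lemma cosSum_finite {Φ : E → ℝ} {y : E} {A : Set (Γ ⧸ S)} (hA : A.Finite)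
    (h : ∀ g : Γ, Φ (g⁻¹ • y) ≠ 0 → (g : Γ ⧸ S) ∈ A) :
    cosSum S Φ y = ∑ a ∈ hA.toFinset, Φ ((Quotient.out a)⁻¹ • y) := by
  unfold cosSum
  refine finsum_eq_sum_of_support_subset _ fun a ha => ?_
  simp only [Finite.coe_toFinset]
  have := h (Quotient.out a) ha
  rwa [QuotientGroup.out_eq'] at this

/-- a local section of the covering -/
lemma exists_sec (hG : IsGalois Γ p) (y : E) : ∃ σ : X → E, ContinuousAt σ (p y) ∧ σ (p y) = y ∧
    ∀ᶠ x in 𝓝 (p y), p (σ x) = x := by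
  obtain ⟨f, hf, hpf⟩ := hG.cov.isLocalHomeomorph y
  refine ⟨f.symm, ?_, ?_, ?_⟩
  · rw [hpf]; exact f.continuousAt_symm (f.map_source hf)
  · rw [hpf]; exact f.left_inv hf
  · rw [hpf]
    filter_upwards [f.open_target.mem_nhds (f.map_source hf)] with x hx
    exact f.right_inv hx

end

theorem coset_sum {n : ℕ} {X E Γ : Type} [TopologicalSpace X] [ChartedSpace (Cm n) X]
    [IsManifold 𝓘(ℂ, Cm n) ω X] [TopologicalSpace E] [Group Γ] [MulAction Γ E] {p : E → X}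
    (hG : IsGalois Γ p) {Z : Set X} (hZ : IsClosed Z) (S : Subgroup Γ) (Φ Ψ : E → ℝ)
    (ρ : Chart n X → Cm n → Matrix (Fin n) (Fin n) ℂ) (α : Chart n X → Cm n → Cm n)
    (hS : ∀ g ∈ S, ∀ y, p y ∉ Z → Φ (g • y) = Φ y ∧ Ψ (g • y) = Ψ y) (h0 : ∀ y, 0 ≤ Ψ y)
    (hfin : ∀ y, p y ∉ Z → ∃ N ∈ 𝓝 y, {a : Γ ⧸ S | ∃ g : Γ, (g : Γ ⧸ S) = a ∧
      ∃ y' ∈ N, Φ (g⁻¹ • y') ≠ 0 ∨ Ψ (g⁻¹ • y') ≠ 0}.Finite)
    (hΨ : ∀ y, p y ∉ Z → ContinuousAt Ψ y)
    (hΦ : ∀ y (e : Chart n X), At e (p y) → p y ∉ Z → ∃ P : Cm n → ℝ,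
      ContDiffAt ℝ ∞ P (e (p y)) ∧ (∀ᶠ y' in 𝓝 y, Φ y' = P (e (p y'))) ∧
      ∀ ξ : Cm n, (∀ k, ∑ j, ρ e (e (p y)) j k * ξ j = 0) →
        ∑ j, dz j (fun z => (P z : ℂ)) (e (p y)) * ξ j =
          (Ψ y : ℂ) * ∑ j, α e (e (p y)) j * ξ j) :
    ∃ F G : X → ℝ, (∀ x, |F x| ≤ 2) ∧ (∀ x, 0 ≤ G x) ∧
      (∀ (e : Chart n X) x, At e x → x ∉ Z → ContDiffAt ℝ ∞ (fun z => F (e.symm z)) (e x)) ∧
      (∀ x, x ∉ Z → ContinuousAt G x) ∧
      (∀ e x, At e x → x ∉ Z → ∀ ξ : Cm n, (∀ k, ∑ j, ρ e (e x) j k * ξ j = 0) →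
        ∑ j, dz j (fun z => (F (e.symm z) : ℂ)) (e x) * ξ j =
          (G x : ℂ) * ∑ j, α e (e x) j * ξ j) ∧
      ∀ y, p y ∉ Z → 0 < Ψ y → 0 < G (p y) := by
  have hSΦ : ∀ g ∈ S, ∀ y, p y ∉ Z → Φ (g • y) = Φ y := fun g hg y hy => (hS g hg y hy).1
  have hSΨ : ∀ g ∈ S, ∀ y, p y ∉ Z → Ψ (g • y) = Ψ y := fun g hg y hy => (hS g hg y hy).2
  choose lft hlft using hG.surj
  set f : X → ℝ := fun x => cosSum S Φ (lft x) with hf
  set g : X → ℝ := fun x => cosSum S Ψ (lft x) with hg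
  have hfy : ∀ y, p y ∉ Z → f (p y) = cosSum S Φ y := fun y hy =>
    cosSum_congr hG hSΦ hy (hlft (p y)).symm
  have hgy : ∀ y, p y ∉ Z → g (p y) = cosSum S Ψ y := fun y hy =>
    cosSum_congr hG hSΨ hy (hlft (p y)).symm
  have hg0 : ∀ x, 0 ≤ g x := fun x => cosSum_nonneg h0 _
  have hpm : ∀ (a : Γ) (y : E), p (a • y) = p y := p_smul hG
  have hnZ : ∀ y, p y ∉ Z → ∀ᶠ x in 𝓝 (p y), x ∉ Z := fun y hy => hZ.isOpen_compl.mem_nhds hy
  -- local expression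
  have hloc : ∀ y, p y ∉ Z → ∃ A : Finset (Γ ⧸ S), ∃ σ : X → E, ContinuousAt σ (p y) ∧
      σ (p y) = y ∧ (∀ᶠ x in 𝓝 (p y), p (σ x) = x) ∧
      (∀ᶠ x in 𝓝 (p y), f x = ∑ a ∈ A, Φ ((Quotient.out a)⁻¹ • σ x)) ∧
      (∀ᶠ x in 𝓝 (p y), g x = ∑ a ∈ A, Ψ ((Quotient.out a)⁻¹ • σ x)) := by
    intro y hy
    obtain ⟨N, hN, hA⟩ := hfin y hy
    obtain ⟨σ, hσc, hσy, hσp⟩ := exists_sec hG y
    have hσN : ∀ᶠ x in 𝓝 (p y), σ x ∈ N := by
      have : N ∈ 𝓝 (σ (p y)) := by rw [hσy]; exact hN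
      exact hσc this
    refine ⟨hA.toFinset, σ, hσc, hσy, hσp, ?_, ?_⟩
    · filter_upwards [hσN, hσp, hnZ y hy] with x h1 h2 h3
      have h4 := hfy (σ x) (by rwa [h2])
      rw [h2] at h4
      rw [h4]
      exact cosSum_finite hA fun g hg => ⟨g, rfl, σ x, h1, Or.inl hg⟩
    · filter_upwards [hσN, hσp, hnZ y hy] with x h1 h2 h3
      have h4 := hgy (σ x) (by rwa [h2])
      rw [h2] at h4
      rw [h4]
      exact cosSum_finite hA fun g hg => ⟨g, rfl, σ x, h1, Or.inr hg⟩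
  -- smoothness of `f`, with the derivative formula
  have hsm : ∀ (e : Chart n X) x, At e x → x ∉ Z →
      ContDiffAt ℝ ∞ (fun z => f (e.symm z)) (e x) ∧
      ∀ ξ : Cm n, (∀ k, ∑ j, ρ e (e x) j k * ξ j = 0) →
        ∑ j, dz j (fun z => (f (e.symm z) : ℂ)) (e x) * ξ j =
          (g x : ℂ) * ∑ j, α e (e x) j * ξ j := by
    intro e x hx hxZ
    obtain ⟨y, rfl⟩ := hG.surj x
    obtain ⟨A, σ, hσc, hσy, hσp, hfA, hgA⟩ := hloc y hxZ
    have hΦa : ∀ a : Γ ⧸ S, ∃ P : Cm n → ℝ, ContDiffAt ℝ ∞ P (e (p y)) ∧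
        (∀ᶠ x in 𝓝 (p y), Φ ((Quotient.out a)⁻¹ • σ x) = P (e x)) ∧
        ∀ ξ : Cm n, (∀ k, ∑ j, ρ e (e (p y)) j k * ξ j = 0) →
          ∑ j, dz j (fun z => (P z : ℂ)) (e (p y)) * ξ j =
          (Ψ ((Quotient.out a)⁻¹ • y) : ℂ) * ∑ j, α e (e (p y)) j * ξ j := by
      intro a
      obtain ⟨P, h1, h2, h3⟩ := hΦ ((Quotient.out a)⁻¹ • y) e (by rwa [hpm]) (by rwa [hpm])
      rw [hpm] at h1 h3
      refine ⟨P, h1, ?_, h3⟩
      have hc : ContinuousAt (fun x => (Quotient.out a)⁻¹ • σ x) (p y) :=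
        (hG.cont _).continuousAt.comp hσc
      have h4 : ∀ᶠ x in 𝓝 (p y), Φ ((Quotient.out a)⁻¹ • σ x) =
          P (e (p ((Quotient.out a)⁻¹ • σ x))) := by
        have h5 : Tendsto (fun x => (Quotient.out a)⁻¹ • σ x) (𝓝 (p y))
            (𝓝 ((Quotient.out a)⁻¹ • y)) := by
          have := hc.tendsto
          rwa [hσy] at this
        exact h5.eventually h2
      filter_upwards [h4, hσp] with x h6 h7
      rw [h6, hpm, h7]
    choose P hP1 hP2 hP3 using hΦa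
    have h1 : ∀ᶠ x in 𝓝 (p y), f x = ∑ a ∈ A, P a (e x) := by
      have : ∀ᶠ x in 𝓝 (p y), ∀ a ∈ A, Φ ((Quotient.out a)⁻¹ • σ x) = P a (e x) :=
        (Filter.eventually_all_finset A).2 fun a _ => hP2 a
      filter_upwards [hfA, this] with x h2 h3
      rw [h2]
      exact Finset.sum_congr rfl h3
    have h2 : (fun z => f (e.symm z)) =ᶠ[𝓝 (e (p y))] fun z => ∑ a ∈ A, P a z := by
      have h3 : Tendsto e.symm (𝓝 (e (p y))) (𝓝 (p y)) := by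
        have := e.continuousAt_symm (e.map_source hx.2)
        rwa [ContinuousAt, e.left_inv hx.2] at this
      filter_upwards [h3.eventually h1, e.open_target.mem_nhds (e.map_source hx.2)] with z h4 h5
      rw [h4, e.right_inv h5]
    refine ⟨(ContDiffAt.sum fun a _ => hP1 a).congr_of_eventuallyEq h2, fun ξ hξ => ?_⟩
    have h3 : (fun z => (f (e.symm z) : ℂ)) =ᶠ[𝓝 (e (p y))] fun z => ∑ a ∈ A, (P a z : ℂ) := by
      filter_upwards [h2] with z hz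
      rw [hz]; push_cast; rfl
    have h4 : ∀ j, dz j (fun z => (f (e.symm z) : ℂ)) (e (p y)) =
        ∑ a ∈ A, dz j (fun z => (P a z : ℂ)) (e (p y)) := by
      intro j
      rw [INT.dz_congr h3, INT.dz_sum A fun a _ =>
        (INT.ofReal_contDiffAt (hP1 a)).differentiableAt (by simp)]
    have h5 : g (p y) = ∑ a ∈ A, Ψ ((Quotient.out a)⁻¹ • y) := by
      have := hgA.self_of_nhds
      rwa [hσy] at this
    simp only [h4, Finset.sum_mul]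
    rw [Finset.sum_comm, h5]
    push_cast
    rw [Finset.sum_mul]
    exact Finset.sum_congr rfl fun a _ => hP3 a ξ hξ
  have hfc : ∀ x, x ∉ Z → ContinuousAt f x := by
    intro x hx
    have hAt : At (chartAt (Cm n) x) x := ⟨chart_mem_atlas _ x, mem_chart_source _ x⟩
    have h1 := (hsm _ x hAt hx).1.continuousAt
    have h2 : ContinuousAt (fun y => f ((chartAt (Cm n) x).symm (chartAt (Cm n) x y))) x :=
      h1.comp (f := chartAt (Cm n) x) ((chartAt (Cm n) x).continuousAt hAt.2)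
    refine h2.congr ?_
    filter_upwards [(chartAt (Cm n) x).open_source.mem_nhds hAt.2] with y hy
    rw [(chartAt (Cm n) x).left_inv hy]
  have hgc : ∀ x, x ∉ Z → ContinuousAt g x := by
    intro x hx
    obtain ⟨y, rfl⟩ := hG.surj x
    obtain ⟨A, σ, hσc, hσy, hσp, hfA, hgA⟩ := hloc y hx
    have h1 : ContinuousAt (fun x => ∑ a ∈ A, Ψ ((Quotient.out a)⁻¹ • σ x)) (p y) := by
      refine tendsto_finsetSum _ fun a _ => ?_
      have hc : ContinuousAt (fun x => (Quotient.out a)⁻¹ • σ x) (p y) :=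
        (hG.cont _).continuousAt.comp hσc
      have h2 : ContinuousAt Ψ ((Quotient.out a)⁻¹ • σ (p y)) := by
        rw [hσy]; exact hΨ _ (by rwa [hpm])
      exact h2.comp (f := fun x => (Quotient.out a)⁻¹ • σ x) hc
    exact h1.congr (hgA.mono fun x hx => hx.symm)
  have hpos : ∀ x, 0 < 1 + f x ^ 2 := fun x => by positivity
  refine ⟨fun x => Real.arctan (f x), fun x => g x / (1 + f x ^ 2), fun x => ?_, fun x => ?_,
    fun e x hx hxZ => ?_, fun x hx => ?_, fun e x hx hxZ ξ hξ => ?_, fun y hy hy0 => ?_⟩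
  · have h1 := Real.arctan_lt_pi_div_two (f x)
    have h2 := Real.neg_pi_div_two_lt_arctan (f x)
    have h3 := Real.pi_le_four
    rw [abs_le]; constructor <;> linarith
  · exact div_nonneg (hg0 x) (hpos x).le
  · exact Real.contDiff_arctan.contDiffAt.comp (e x) (hsm e x hx hxZ).1
  · exact (hgc x hx).div (continuousAt_const.add ((hfc x hx).pow 2)) (hpos x).ne'
  · obtain ⟨h1, h2⟩ := hsm e x hx hxZ
    have h3 : ∀ j, dz j (fun z => ((Real.arctan (f (e.symm z)) : ℝ) : ℂ)) (e x) =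
        ((1 / (1 + f x ^ 2) : ℝ) : ℂ) * dz j (fun z => (f (e.symm z) : ℂ)) (e x) := by
      intro j
      rw [AMP.dz_real_comp (φ := Real.arctan) (f := fun z => f (e.symm z))
        Real.differentiable_arctan.differentiableAt (h1.differentiableAt (by simp)), e.left_inv hx.2,
        Real.deriv_arctan]
    simp only [h3]
    have h4 : ∑ j, ((1 / (1 + f x ^ 2) : ℝ) : ℂ) * dz j (fun z => (f (e.symm z) : ℂ)) (e x) * ξ j =
        ((1 / (1 + f x ^ 2) : ℝ) : ℂ) * ∑ j, dz j (fun z => (f (e.symm z) : ℂ)) (e x) * ξ j := by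
      rw [Finset.mul_sum]
      exact Finset.sum_congr rfl fun j _ => by ring
    rw [h4, h2 ξ hξ]
    push_cast
    ring
  · refine div_pos ?_ (hpos _)
    rw [hgy y hy]
    obtain ⟨N, hN, hA⟩ := hfin y hy
    rw [cosSum_finite hA fun g hg => ⟨g, rfl, y, mem_of_mem_nhds hN, Or.inr hg⟩]
    have h1 : Ψ ((Quotient.out ((1 : Γ) : Γ ⧸ S))⁻¹ • y) = Ψ y := by
      rw [phi_rep hG hSΨ hy 1, inv_one, one_smul]
    refine Finset.sum_pos' (fun a _ => h0 _) ⟨((1 : Γ) : Γ ⧸ S), ?_, by rw [h1]; exact hy0⟩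
    rw [Finite.mem_toFinset]
    exact ⟨1, rfl, y, mem_of_mem_nhds hN, Or.inr (by rw [inv_one, one_smul]; exact hy0.ne')⟩

end Vale.Agent.P284.H395
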