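import Vale.Agent.P284.H395.StkI
import Vale.Agent.P272.K.AMP.Calc
import Mathlib.Analysis.SpecialFunctions.SmoothTransition
import Mathlib.MeasureTheory.Integral.IntervalIntegral.FundThmCalculus

/-!
# P284 (helper395), C-STK: truncations of the potential
-/

open scoped Manifold ContDiff ComplexOrder ComplexConjugate Topology
open MeasureTheory Set Filter Matrix

noncomputable section

namespace Vale.Agent.P284.H395

open Vale.Agent.P272.K

variable {n : ℕ}

/-! ### the convex function -/

/-- smooth convex, `0` on `(-∞, 0]`, of slope `1` on `[1, ∞)` -/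
def kap (x : ℝ) : ℝ := ∫ t in (0 : ℝ)..x, Real.smoothTransition t

lemma kap_hasDerivAt (x : ℝ) : HasDerivAt kap (Real.smoothTransition x) x :=
  Real.smoothTransition.continuous.integral_hasStrictDerivAt 0 x |>.hasDerivAt

lemma deriv_kap : deriv kap = Real.smoothTransition := funext fun x => (kap_hasDerivAt x).deriv

lemma contDiff_kap : ContDiff ℝ ∞ kap := by
  rw [contDiff_infty_iff_deriv]
  refine ⟨fun x => (kap_hasDerivAt x).differentiableAt, ?_⟩
  rw [deriv_kap]
  exact Real.smoothTransition.contDiff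

lemma kap_of_nonpos {x : ℝ} (hx : x ≤ 0) : kap x = 0 := by
  unfold kap
  rw [intervalIntegral.integral_zero_ae]
  refine Eventually.of_forall fun t ht => ?_
  rw [Set.uIoc_of_ge hx] at ht
  exact Real.smoothTransition.zero_of_nonpos ht.2

lemma kap_nonneg (x : ℝ) : 0 ≤ kap x := by
  rcases le_total x 0 with hx | hx
  · rw [kap_of_nonpos hx]
  · exact intervalIntegral.integral_nonneg hx fun t _ => Real.smoothTransition.nonneg t

lemma kap_le {x : ℝ} (hx : 0 ≤ x) : kap x ≤ x := by
  have h1 : kap x ≤ ∫ t in (0 : ℝ)..x, (1 : ℝ) := by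
    refine intervalIntegral.integral_mono_on hx
      (Real.smoothTransition.continuous.intervalIntegrable _ _) (by simp) fun t _ =>
      Real.smoothTransition.le_one t
  simpa using h1

lemma deriv2_kap_nonneg (x : ℝ) : 0 ≤ deriv (deriv kap) x := by
  rw [deriv_kap]
  exact Real.smoothTransition.monotone.deriv_nonneg

/-! ### the cut-off -/

/-- `0` for `t ≤ -2 J`, `1` for `t ≥ -J` -/
def chi (J t : ℝ) : ℝ := Real.smoothTransition (t / J + 2)

lemma chi_contDiff (J : ℝ) : ContDiff ℝ ∞ (chi J) :=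
  Real.smoothTransition.contDiff.comp ((contDiff_id.div_const J).add contDiff_const)

lemma chi_nonneg (J t : ℝ) : 0 ≤ chi J t := Real.smoothTransition.nonneg _

lemma chi_le_one (J t : ℝ) : chi J t ≤ 1 := Real.smoothTransition.le_one _

lemma chi_zero {J t : ℝ} (hJ : 0 < J) (ht : t ≤ -2 * J) : chi J t = 0 := by
  refine Real.smoothTransition.zero_of_nonpos ?_
  have : t / J ≤ -2 := by rw [div_le_iff₀ hJ]; linarith
  linarith

lemma chi_one {J t : ℝ} (hJ : 0 < J) (ht : -J ≤ t) : chi J t = 1 := by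
  refine Real.smoothTransition.one_of_one_le ?_
  have : -1 ≤ t / J := by rw [le_div_iff₀ hJ]; linarith
  linarith

lemma chi_mono {J J' : ℝ} (hJ : 0 < J) (h : J ≤ J') (t : ℝ) : chi J t ≤ chi J' t := by
  rcases le_total t 0 with ht | ht
  · refine Real.smoothTransition.monotone ?_
    have : t / J ≤ t / J' := by
      rw [div_le_div_iff₀ hJ (hJ.trans_le h)]
      nlinarith
    linarith
  · rw [chi_one (hJ.trans_le h) (by linarith)]
    exact chi_le_one _ _

lemma deriv_chi {J : ℝ} (t : ℝ) :
    deriv (chi J) t = deriv Real.smoothTransition (t / J + 2) / J := by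
  have h1 : HasDerivAt (fun t : ℝ => t / J + 2) (1 / J) t :=
    ((hasDerivAt_id t).div_const J).add_const 2
  have h2 : HasDerivAt Real.smoothTransition (deriv Real.smoothTransition (t / J + 2))
      (t / J + 2) :=
    ((Real.smoothTransition.contDiff (n := 1)).differentiable (by norm_num) _).hasDerivAt
  have := (h2.comp t h1).deriv
  rw [show (Real.smoothTransition ∘ fun t => t / J + 2) = chi J from rfl] at this
  rw [this]; ring

lemma exists_bd : ∃ L : ℝ, 0 ≤ L ∧ ∀ t, |deriv Real.smoothTransition t| ≤ L := by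
  have hc : Continuous (deriv Real.smoothTransition) :=
    (Real.smoothTransition.contDiff (n := 1)).continuous_deriv (by norm_num)
  obtain ⟨L, hL⟩ := (isCompact_Icc (a := (0 : ℝ)) (b := 1)).exists_bound_of_continuousOn
    hc.continuousOn
  refine ⟨max L 0, le_max_right _ _, fun t => ?_⟩
  by_cases ht : t ∈ Icc (0 : ℝ) 1
  · exact (hL t ht).trans (le_max_left _ _)
  · have : deriv Real.smoothTransition t = 0 := by
      rw [mem_Icc, not_and_or, not_le, not_le] at ht
      rcases ht with ht | ht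
      · have : Real.smoothTransition =ᶠ[𝓝 t] fun _ => 0 := by
          filter_upwards [gt_mem_nhds ht] with s hs
          exact Real.smoothTransition.zero_of_nonpos (le_of_lt hs)
        rw [this.deriv_eq]; simp
      · have : Real.smoothTransition =ᶠ[𝓝 t] fun _ => 1 := by
          filter_upwards [lt_mem_nhds ht] with s hs
          exact Real.smoothTransition.one_of_one_le (le_of_lt hs)
        rw [this.deriv_eq]; simp
    rw [this]; simp

/-! ### extension by zero -/

section
variable {X : Type*} [TopologicalSpace X] [ChartedSpace (Cm n) X]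

open Classical in
/-- extension by zero -/
def ext0 (Z : Set X) (f : X → ℝ) (x : X) : ℝ := if x ∈ Z then 0 else f x

lemma ext0_of_mem {Z : Set X} {f : X → ℝ} {x : X} (h : x ∈ Z) : ext0 Z f x = 0 := if_pos h

lemma ext0_of_notMem {Z : Set X} {f : X → ℝ} {x : X} (h : x ∉ Z) : ext0 Z f x = f x := if_neg h

lemma ext0_near {Z : Set X} (hZ : IsClosed Z) {f : X → ℝ} {e : Chart n X} {x : X} (h : At e x)
    (hx : x ∉ Z) : (fun z => ext0 Z f (e.symm z)) =ᶠ[𝓝 (e x)] fun z => f (e.symm z) := by
  filter_upwards [nhds_U hZ.isOpen_compl h hx] with z hz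
  exact ext0_of_notMem hz.2.2

/-- a function which is smooth off `Z` and vanishes near `Z` -/
lemma smoothFn_of {Z : Set X} {f : X → ℝ}
    (h1 : ∀ (e : Chart n X) x, At e x → x ∉ Z → ContDiffAt ℝ ∞ (fun z => f (e.symm z)) (e x))
    (h2 : ∀ x ∈ Z, ∀ᶠ y in 𝓝 x, f y = 0) : SmoothFn (n := n) f := by
  intro e x h
  by_cases hx : x ∈ Z
  · have : (fun z => f (e.symm z)) =ᶠ[𝓝 (e x)] fun _ => 0 := by
      have h3 := h2 x hx
      have h4 : ContinuousAt e.symm (e x) := e.continuousAt_symm (e.map_source h.2)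
      have h5 : ∀ᶠ y in 𝓝 (e.symm (e x)), f y = 0 := by rw [e.left_inv h.2]; exact h3
      exact h4.eventually h5
    exact contDiffAt_const.congr_of_eventuallyEq this
  · exact h1 e x h hx

omit [ChartedSpace (Cm n) X] in
lemma tsupport_of {Z : Set X} {f : X → ℝ} (h2 : ∀ x ∈ Z, ∀ᶠ y in 𝓝 x, f y = 0) :
    tsupport f ⊆ Zᶜ := by
  intro x hx hxZ
  exact (notMem_tsupport_iff_eventuallyEq.2 (h2 x hxZ)) hx

omit [ChartedSpace (Cm n) X] in
lemma ext0_zero {Z : Set X} {u f : X → ℝ} {A : ℝ}
    (hu : ∀ x ∈ Z, Tendsto u (𝓝[Zᶜ] x) atBot) (hf : ∀ x, u x ≤ A → f x = 0) :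
    ∀ x ∈ Z, ∀ᶠ y in 𝓝 x, ext0 Z f y = 0 := by
  intro x hx
  have h1 : ∀ᶠ y in 𝓝[Zᶜ] x, u y ≤ A := (hu x hx).eventually (eventually_le_atBot A)
  rw [eventually_nhdsWithin_iff] at h1
  filter_upwards [h1] with y hy
  by_cases hyZ : y ∈ Z
  · exact ext0_of_mem hyZ
  · rw [ext0_of_notMem hyZ]
    exact hf y (hy hyZ)

end

end Vale.Agent.P284.H395
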