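import Vale.Agent.P272.K.INT.Global
import Vale.Agent.P272.K.Inv.Consts
import Vale.Agent.P272.K.Iface

/-!
# P284 (helper395), C-STK: integration by parts against `adj b`, `b` a closed `(1,1)`-form
-/

open scoped Manifold ContDiff ComplexOrder ComplexConjugate Topology
open MeasureTheory Set Filter Matrix

noncomputable section

namespace Vale.Agent.P284.H395

open Vale.Agent.P272.K

variable {n : ℕ}

lemma det_updateRow_eq (M : Matrix (Fin n) (Fin n) ℂ) (r : Fin n) (v : Fin n → ℂ) :
    (M.updateRow r v).det = ∑ l, v l * M.adjugate l r := by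
  rw [← Matrix.cramer_transpose_apply, Matrix.cramer_eq_adjugate_mulVec,
    ← Matrix.adjugate_transpose]
  simp only [Matrix.mulVec, dotProduct, Matrix.transpose_apply]
  exact Finset.sum_congr rfl fun l _ => mul_comm _ _

/-- integration by parts in a chart -/
theorem local_ibp {V : Set (Cm n)} {b : Cm n → Matrix (Fin n) (Fin n) ℂ} {a : Cm n → Cm n}
    {u : Cm n → ℝ} (hb : ∀ z ∈ V, ∀ i j, ContDiffAt ℝ ∞ (fun y => b y i j) z)
    (hcl : ∀ z ∈ V, ∀ i k l, dz i (fun y => b y k l) z = dz k (fun y => b y i l) z)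
    (ha : ∀ z ∈ V, ∀ i, ContDiffAt ℝ ∞ (fun y => a y i) z)
    (hu : ContDiff ℝ ∞ u) (hc : HasCompactSupport u) (hs : tsupport u ⊆ V) :
    ∫ z, (star (a z) ⬝ᵥ (b z).adjugate *ᵥ (fun j => dz j (fun y => (u y : ℂ)) z) +
      (u z : ℂ) * ((b z).adjugate * Matrix.of fun j k =>
        dz j (fun y => conj (a y k)) z).trace).re = 0 := by
  set F : Fin n → Cm n → ℂ := fun r z =>
    ((b z).updateRow r (fun l => (u z : ℂ) * conj (a z l))).det with hF
  have hu0 : ∀ z, z ∉ tsupport u → u z = 0 := fun z hz => image_eq_zero_of_notMem_tsupport hz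
  have hF0 : ∀ r z, z ∉ tsupport u → F r z = 0 := by
    intro r z hz
    refine Matrix.det_eq_zero_of_row_eq_zero r fun l => ?_
    rw [Matrix.updateRow_self, hu0 z hz]
    simp
  have hFs : ∀ r, HasCompactSupport (F r) := fun r =>
    HasCompactSupport.intro hc (fun z hz => hF0 r z hz)
  have hFt : ∀ r z, z ∉ tsupport u → F r =ᶠ[𝓝 z] fun _ => 0 := by
    intro r z hz
    filter_upwards [(isClosed_tsupport u).isOpen_compl.mem_nhds hz] with y hy
    exact hF0 r y hy
  have huC : ∀ z, ContDiffAt ℝ ∞ (fun y => (u y : ℂ)) z := fun z =>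
    INT.ofReal_contDiffAt hu.contDiffAt
  have hac : ∀ z ∈ V, ∀ l, ContDiffAt ℝ ∞ (fun y => conj (a y l)) z := fun z hz l =>
    (Complex.conjCLE.contDiff.contDiffAt.comp z (ha z hz l))
  have hrow : ∀ z ∈ V, ∀ l, ContDiffAt ℝ ∞ (fun y => (u y : ℂ) * conj (a y l)) z :=
    fun z hz l => (huC z).mul (hac z hz l)
  have hFc : ∀ r, ContDiff ℝ 1 (F r) := by
    intro r
    rw [contDiff_iff_contDiffAt]
    intro z
    by_cases hz : z ∈ tsupport u
    · refine (INT.contDiffAt_det (k := ∞) fun i j => ?_).of_le (by exact_mod_cast le_top)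
      by_cases h : i = r
      · subst h
        simp only [Matrix.updateRow_self]
        exact hrow z (hs hz) j
      · simp only [Matrix.updateRow_ne h]
        exact hb z (hs hz) i j
    · exact contDiffAt_const.congr_of_eventuallyEq (hFt r z hz)
  have key : ∀ z, star (a z) ⬝ᵥ (b z).adjugate *ᵥ (fun j => dz j (fun y => (u y : ℂ)) z) +
      (u z : ℂ) * ((b z).adjugate * Matrix.of fun j k =>
        dz j (fun y => conj (a y k)) z).trace = ∑ r, dz r (F r) z := by
    intro z
    by_cases hz : z ∈ tsupport u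
    · have hzV := hs hz
      have := INT.piola (M := b) (a := fun y l => (u y : ℂ) * conj (a y l)) (z := z)
        (fun i j => (hb z hzV i j).differentiableAt (by simp))
        (fun l => (hrow z hzV l).differentiableAt (by simp)) (hcl z hzV)
      rw [this]
      have h1 : ∀ r l, dz r (fun y => (u y : ℂ) * conj (a y l)) z =
          dz r (fun y => (u y : ℂ)) z * conj (a z l) +
            (u z : ℂ) * dz r (fun y => conj (a y l)) z := fun r l =>
        INT.dz_mul ((huC z).differentiableAt (by simp)) ((hac z hzV l).differentiableAt (by simp))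
      simp only [det_updateRow_eq, h1]
      simp only [add_mul, Finset.sum_add_distrib]
      congr 1
      · simp only [dotProduct, Matrix.mulVec, Pi.star_apply, RCLike.star_def, Finset.mul_sum]
        rw [Finset.sum_comm]
        exact Finset.sum_congr rfl fun r _ => Finset.sum_congr rfl fun l _ => by ring
      · simp only [Matrix.trace, Matrix.diag_apply, Matrix.mul_apply, Matrix.of_apply,
          Finset.mul_sum]
        rw [Finset.sum_comm]
        exact Finset.sum_congr rfl fun r _ => Finset.sum_congr rfl fun l _ => by ring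
    · have h1 : (fun y => (u y : ℂ)) =ᶠ[𝓝 z] fun _ => 0 := by
        filter_upwards [(isClosed_tsupport u).isOpen_compl.mem_nhds hz] with y hy
        rw [hu0 y hy]; simp
      have h2 : ∀ r, dz r (F r) z = 0 := fun r => by rw [INT.dz_congr (hFt r z hz)]; simp
      have h3 : (fun j => dz j (fun y => (u y : ℂ)) z) = 0 := by
        funext j; rw [INT.dz_congr h1]; simp
      rw [h3, hu0 z hz]
      simp [h2]
  have hint : ∀ r, Integrable (fun z => dz r (F r) z) := by
    intro r
    have h1 : Continuous (dz r (F r)) := by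
      rw [INT.dz_fun_eq]
      have := (hFc r).continuous_fderiv (by norm_num)
      exact continuous_const.mul ((this.clm_apply continuous_const).sub
        (continuous_const.mul (this.clm_apply continuous_const)))
    refine h1.integrable_of_hasCompactSupport (HasCompactSupport.intro hc fun z hz => ?_)
    rw [INT.dz_congr (hFt r z hz)]; simp
  simp only [key]
  have e3 : ∫ z, (∑ r, dz r (F r) z).re = (∫ z, ∑ r, dz r (F r) z).re :=
    Complex.reCLM.integral_comp_comm (integrable_finsetSum _ fun r _ => hint r)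
  rw [e3, integral_finsetSum _ fun r _ => hint r]
  simp [fun r => INT.integral_dz_eq_zero (hFc r) (hFs r) r]

section
variable {X : Type*} [TopologicalSpace X] [ChartedSpace (Cm n) X]

/-- `∂f` in the chart `e` -/
def gr (f : X → ℝ) (e : Chart n X) (z : Cm n) : Cm n :=
  fun j => dz j (fun y => (f (e.symm y) : ℂ)) z

/-- a smooth closed `(1,1)`-form on `U` -/
structure ClosedOn (U : Set X) (b : Chart n X → Cm n → Matrix (Fin n) (Fin n) ℂ) : Prop where
  smooth : ∀ e x, At e x → x ∈ U → ∀ i j, ContDiffAt ℝ ∞ (fun z => b e z i j) (e x)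
  change : ∀ e e' x, At e x → At e' x → x ∈ U → b e (e x) =
    (jacM e e' x).transpose * b e' (e' x) * (jacM e e' x).map (starRingEnd ℂ)
  closed : ∀ e x, At e x → x ∈ U → ∀ i k l,
    dz i (fun z => b e z k l) (e x) = dz k (fun z => b e z i l) (e x)

/-- a smooth `(1,0)`-form `a` on `U`, with `∂ā = H` -/
structure CovOn (U : Set X) (a : Chart n X → Cm n → Cm n)
    (H : Chart n X → Cm n → Matrix (Fin n) (Fin n) ℂ) : Prop where
  smooth : ∀ e x, At e x → x ∈ U → ∀ i, ContDiffAt ℝ ∞ (fun z => a e z i) (e x)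
  change : ∀ e e' x, At e x → At e' x → x ∈ U → a e (e x) =
    (jacM e e' x).transpose *ᵥ a e' (e' x)
  Hchange : ∀ e e' x, At e x → At e' x → x ∈ U → H e (e x) =
    (jacM e e' x).transpose * H e' (e' x) * (jacM e e' x).map (starRingEnd ℂ)
  der : ∀ e x, At e x → x ∈ U → ∀ j k, dz j (fun y => conj (a e y k)) (e x) = H e (e x) j k

/-- the pairing `<β, α>` for `adj b`, transformation rule -/
lemma adj_pair_change (J B : Matrix (Fin n) (Fin n) ℂ) (α β : Fin n → ℂ) :
    star (Jᵀ *ᵥ α) ⬝ᵥ (Jᵀ * B * J.map (starRingEnd ℂ)).adjugate *ᵥ (Jᵀ *ᵥ β) =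
      ((‖J.det‖ ^ 2 : ℝ) : ℂ) * (star α ⬝ᵥ B.adjugate *ᵥ β) := by
  have h1 : star (Jᵀ *ᵥ α) = star α ᵥ* (J.map (starRingEnd ℂ)) := by
    rw [Matrix.star_mulVec]
    congr 1
  have h2 : J.map (starRingEnd ℂ) * ((J.map (starRingEnd ℂ)).adjugate * (B.adjugate * (Jᵀ.adjugate *
      Jᵀ))) = ((‖J.det‖ ^ 2 : ℝ) : ℂ) • B.adjugate := by
    rw [← Matrix.mul_assoc, Matrix.mul_adjugate, Matrix.adjugate_mul, Matrix.det_transpose]
    simp only [Matrix.mul_smul, Matrix.mul_one, Matrix.smul_mul, Matrix.one_mul, smul_smul]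
    congr 1
    have : (J.map (starRingEnd ℂ)).det = (starRingEnd ℂ) J.det := by
      rw [RingHom.map_det]; rfl
    rw [this, Complex.mul_conj, Complex.normSq_eq_norm_sq]
  rw [h1, Matrix.adjugate_mul_distrib, Matrix.adjugate_mul_distrib, Matrix.mulVec_mulVec,
    ← Matrix.dotProduct_mulVec, Matrix.mulVec_mulVec, Matrix.mul_assoc, Matrix.mul_assoc, h2,
    Matrix.smul_mulVec, dotProduct_smul, smul_eq_mul]

lemma adj_trace_change (J B H : Matrix (Fin n) (Fin n) ℂ) :
    ((Jᵀ * B * J.map (starRingEnd ℂ)).adjugate * (Jᵀ * H * J.map (starRingEnd ℂ))).trace =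
      ((‖J.det‖ ^ 2 : ℝ) : ℂ) * (B.adjugate * H).trace := by
  have h2 : J.map (starRingEnd ℂ) * (J.map (starRingEnd ℂ)).adjugate =
      ((starRingEnd ℂ) J.det) • (1 : Matrix (Fin n) (Fin n) ℂ) := by
    rw [Matrix.mul_adjugate]
    congr 1
    rw [← RingHom.mapMatrix_apply, ← RingHom.map_det]
  have h3 : Jᵀ.adjugate * Jᵀ = J.det • (1 : Matrix (Fin n) (Fin n) ℂ) := by
    rw [Matrix.adjugate_mul, Matrix.det_transpose]
  rw [Matrix.adjugate_mul_distrib, Matrix.adjugate_mul_distrib]
  have h4 : (J.map (starRingEnd ℂ)).adjugate * (B.adjugate * Jᵀ.adjugate) *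
      (Jᵀ * H * J.map (starRingEnd ℂ)) = (J.map (starRingEnd ℂ)).adjugate *
      (B.adjugate * (Jᵀ.adjugate * Jᵀ) * H * J.map (starRingEnd ℂ)) := by
    simp only [Matrix.mul_assoc]
  rw [h4, Matrix.trace_mul_comm, Matrix.mul_assoc _ (J.map (starRingEnd ℂ)), h2, h3]
  simp only [Matrix.mul_smul, Matrix.mul_one, Matrix.smul_mul, Matrix.trace_smul, smul_eq_mul]
  have h5 : ((starRingEnd ℂ) J.det) * J.det = ((‖J.det‖ ^ 2 : ℝ) : ℂ) := by
    rw [mul_comm, Complex.mul_conj, Complex.normSq_eq_norm_sq]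
  rw [← h5]
  ring

variable [IsManifold 𝓘(ℂ, Cm n) ω X]

lemma gr_change {f : X → ℝ} {e e' : Chart n X} {x : X} (h : At e x) (h' : At e' x)
    (hf : DifferentiableAt ℝ (fun z => f (e'.symm z)) (e' x)) :
    gr f e (e x) = (jacM e e' x).transpose *ᵥ gr f e' (e' x) := by
  funext i
  have h1 : (fun y => (f (e.symm y) : ℂ)) =ᶠ[𝓝 (e x)]
      fun y => (f (e'.symm (e' (e.symm y))) : ℂ) := by
    filter_upwards [h.nhds_at h'] with z hz
    rw [hz.2.2.left_inv]
  have h2 : e' (e.symm (e x)) = e' x := by rw [h.left_inv]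
  have h3 := dz_comp_holo (f := fun y => (f (e'.symm y) : ℂ)) (τ := fun z => e' (e.symm z))
    (z := e x) (i := i) (by
      rw [h2]; exact Complex.ofRealCLM.differentiableAt.comp _ hf)
    (transition_differentiableAt h h')
  unfold gr
  rw [INT.dz_congr h1, h3, h2]
  simp only [Matrix.mulVec, dotProduct, Matrix.transpose_apply]
  exact Finset.sum_congr rfl fun p _ => mul_comm _ _

/-- the density of the integration by parts -/
def ibpD (b : Chart n X → Cm n → Matrix (Fin n) (Fin n) ℂ) (a : Chart n X → Cm n → Cm n)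
    (H : Chart n X → Cm n → Matrix (Fin n) (Fin n) ℂ) (f : X → ℝ) (e : Chart n X) (z : Cm n) : ℝ :=
  (star (a e z) ⬝ᵥ (b e z).adjugate *ᵥ gr f e z +
    (f (e.symm z) : ℂ) * ((b e z).adjugate * H e z).trace).re

lemma contDiffAt_adj_pair {b : Cm n → Matrix (Fin n) (Fin n) ℂ} {a g : Cm n → Cm n} {z : Cm n}
    (hb : ∀ i j, ContDiffAt ℝ ∞ (fun y => b y i j) z) (ha : ∀ i, ContDiffAt ℝ ∞ (fun y => a y i) z)
    (hg : ∀ i, ContDiffAt ℝ ∞ (fun y => g y i) z) :
    ContDiffAt ℝ ∞ (fun y => star (a y) ⬝ᵥ (b y).adjugate *ᵥ g y) z := by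
  simp only [dotProduct, Matrix.mulVec, Pi.star_apply, RCLike.star_def]
  refine ContDiffAt.sum fun k _ => ContDiffAt.mul ?_ (ContDiffAt.sum fun j _ => ?_)
  · exact Complex.conjCLE.contDiff.contDiffAt.comp z (ha k)
  · exact (contDiffAt_adj hb k j).mul (hg j)

omit [IsManifold 𝓘(ℂ, Cm n) ω X] in
lemma gr_zero {f : X → ℝ} {e : Chart n X} {x : X} (h : At e x) (hx : x ∉ tsupport f) :
    ∀ᶠ z in 𝓝 (e x), f (e.symm z) = 0 ∧ gr f e z = 0 := by
  have h1 : ∀ᶠ y in 𝓝 (e x), f (e.symm y) = 0 := by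
    have h1 : ∀ᶠ y in 𝓝 (e x), e.symm y ∈ (tsupport f)ᶜ := by
      apply (e.continuousAt_symm (e.map_source h.2)).eventually_mem
      rw [e.left_inv h.2]
      exact (isClosed_tsupport f).isOpen_compl.mem_nhds hx
    filter_upwards [h1] with y hy
    exact image_eq_zero_of_notMem_tsupport hy
  filter_upwards [h1, h1.eventually_nhds] with z hz hz'
  refine ⟨hz, ?_⟩
  funext j
  have h2 : (fun y => (f (e.symm y) : ℂ)) =ᶠ[𝓝 z] fun _ => 0 := by
    filter_upwards [hz'] with y hy; rw [hy]; simp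
  unfold gr
  rw [INT.dz_congr h2]; simp

section
variable {U : Set X} {b : Chart n X → Cm n → Matrix (Fin n) (Fin n) ℂ}
  {a : Chart n X → Cm n → Cm n} {H : Chart n X → Cm n → Matrix (Fin n) (Fin n) ℂ} {f : X → ℝ}

omit [IsManifold 𝓘(ℂ, Cm n) ω X] in
lemma nhds_U (hU : IsOpen U) {e : Chart n X} {x : X} (h : At e x) (hx : x ∈ U) :
    ∀ᶠ z in 𝓝 (e x), z ∈ e.target ∧ At e (e.symm z) ∧ e.symm z ∈ U := by
  have h2 : ∀ᶠ z in 𝓝 (e x), e.symm z ∈ U :=
    (e.continuousAt_symm h.mem_target).eventually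
      (hU.mem_nhds (by rw [h.left_inv]; exact hx))
  filter_upwards [h.nhds_target, h2] with z hz hz'
  exact ⟨hz, At.of_target h.1 hz, hz'⟩

omit [IsManifold 𝓘(ℂ, Cm n) ω X] in
lemma CovOn.contH (hU : IsOpen U) (ha : CovOn U a H) {e : Chart n X} {x : X} (h : At e x)
    (hx : x ∈ U) (j k : Fin n) : ContDiffAt ℝ ∞ (fun z => H e z j k) (e x) := by
  have h1 : ContDiffAt ℝ ∞ (dz j (fun y => conj (a e y k))) (e x) :=
    INT.smooth_dz (Complex.conjCLE.contDiff.contDiffAt.comp _ (ha.smooth e x h hx k))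
  refine h1.congr_of_eventuallyEq ?_
  filter_upwards [nhds_U hU h hx] with z hz
  have := ha.der e (e.symm z) hz.2.1 hz.2.2 j k
  rw [e.right_inv hz.1] at this
  exact this.symm

lemma ibpD_cont (hU : IsOpen U) (hb : ClosedOn U b) (ha : CovOn U a H)
    (hf : SmoothFn (n := n) f) (hs : tsupport f ⊆ U) : INT.IsDensity (ibpD b a H f) where
  cont e x h := by
    by_cases hx : x ∈ tsupport f
    · have hxU := hs hx
      refine Complex.continuous_re.continuousAt.comp (ContinuousAt.add ?_ ?_)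
      · exact (contDiffAt_adj_pair (hb.smooth e x h hxU) (ha.smooth e x h hxU)
          (fun j => INT.smooth_dz (INT.ofReal_contDiffAt (hf e x h)))).continuousAt
      · refine ((INT.ofReal_contDiffAt (hf e x h)).continuousAt).mul ?_
        simp only [Matrix.trace, Matrix.diag_apply, Matrix.mul_apply]
        refine tendsto_finset_sum _ fun k _ => tendsto_finset_sum _ fun j _ => ?_
        exact ((contDiffAt_adj (hb.smooth e x h hxU) k j).continuousAt).mul
          (ha.contH hU h hxU j k).continuousAt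
    · have : ibpD b a H f e =ᶠ[𝓝 (e x)] fun _ => 0 := by
        filter_upwards [gr_zero h hx] with z hz
        unfold ibpD
        rw [hz.1, hz.2]; simp
      exact continuousAt_const.congr this.symm
  change e e' x h h' := by
    by_cases hx : x ∈ tsupport f
    · have hxU := hs hx
      unfold ibpD
      rw [gr_change h h' ((hf e' x h').differentiableAt (by simp)), hb.change e e' x h h' hxU,
        ha.change e e' x h h' hxU, ha.Hchange e e' x h h' hxU, adj_pair_change,
        adj_trace_change, e.left_inv h.2, e'.left_inv h'.2]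
      have : ((‖(jacM e e' x).det‖ ^ 2 : ℝ) : ℂ) * (star (a e' (e' x)) ⬝ᵥ
          (b e' (e' x)).adjugate *ᵥ gr f e' (e' x)) + (f x : ℂ) *
          (((‖(jacM e e' x).det‖ ^ 2 : ℝ) : ℂ) * ((b e' (e' x)).adjugate * H e' (e' x)).trace) =
          ((‖(jacM e e' x).det‖ ^ 2 : ℝ) : ℂ) * (star (a e' (e' x)) ⬝ᵥ
          (b e' (e' x)).adjugate *ᵥ gr f e' (e' x) + (f x : ℂ) *
          ((b e' (e' x)).adjugate * H e' (e' x)).trace) := by ring
      rw [this, Complex.re_ofReal_mul, mul_comm]
    · have h1 := (gr_zero h hx).self_of_nhds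
      have h2 := (gr_zero h' hx).self_of_nhds
      unfold ibpD
      rw [h1.1, h1.2, h2.1, h2.2]; simp

end

variable [T2Space X] [CompactSpace X] {U : Set X}
  {b : Chart n X → Cm n → Matrix (Fin n) (Fin n) ℂ}
  {a : Chart n X → Cm n → Cm n} {H : Chart n X → Cm n → Matrix (Fin n) (Fin n) ℂ} {f : X → ℝ}

/-- one piece -/
lemma gibp_piece (hU : IsOpen U) (hb : ClosedOn U b) (ha : CovOn U a H)
    (hf : SmoothFn (n := n) f) (hs : tsupport f ⊆ U) {e : Chart n X} (he : e ∈ atlas (Cm n) X)
    (hse : tsupport f ⊆ e.source) : INT.intX (ibpD b a H f) = 0 := by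
  rw [INT.intX_of_support (ibpD_cont hU hb ha hf hs) he (isClosed_tsupport f) hse
    (fun e' x hx hxf => by
      have h1 := (gr_zero hx hxf).self_of_nhds
      unfold ibpD; rw [h1.1, h1.2]; simp)]
  set u : Cm n → ℝ := e.target.indicator (fun z => f (e.symm z)) with hu
  set K : Set (Cm n) := e '' tsupport f with hK
  have hKc : IsCompact K :=
    (isClosed_tsupport f).isCompact.image_of_continuousOn (e.continuousOn.mono hse)
  have hKt : K ⊆ e.target := by
    rintro _ ⟨x, hx, rfl⟩; exact e.map_source (hse hx)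
  have hsupp : Function.support u ⊆ K := by
    intro z hz
    simp only [hu, Function.mem_support] at hz
    have hzt : z ∈ e.target := by
      by_contra h; exact hz (indicator_of_notMem h _)
    rw [indicator_of_mem hzt] at hz
    exact ⟨e.symm z, subset_tsupport _ hz, e.right_inv hzt⟩
  have hts : tsupport u ⊆ K := closure_minimal hsupp hKc.isClosed
  have hucs : HasCompactSupport u := hKc.of_isClosed_subset (isClosed_tsupport u) hts
  have hue : ∀ z ∈ e.target, u =ᶠ[𝓝 z] fun z => f (e.symm z) := by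
    intro z hz
    filter_upwards [e.open_target.mem_nhds hz] with y hy
    rw [hu, indicator_of_mem hy]
  have hus : ContDiff ℝ ∞ u := by
    rw [contDiff_iff_contDiffAt]
    intro z
    by_cases hz : z ∈ e.target
    · have := hf e (e.symm z) ⟨he, e.map_target hz⟩
      rw [e.right_inv hz] at this
      exact this.congr_of_eventuallyEq (hue z hz)
    · exact contDiffAt_const.congr_of_eventuallyEq
        (notMem_tsupport_iff_eventuallyEq.1 fun h => hz (hKt (hts h)))
  have hKV : K ⊆ e.target ∩ e.symm ⁻¹' U := by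
    rintro _ ⟨x, hx, rfl⟩
    refine ⟨e.map_source (hse hx), ?_⟩
    rw [mem_preimage, e.left_inv (hse hx)]
    exact hs hx
  have hVx : ∀ z ∈ e.target ∩ e.symm ⁻¹' U, At e (e.symm z) ∧ e.symm z ∈ U ∧ e (e.symm z) = z :=
    fun z hz => ⟨⟨he, e.map_target hz.1⟩, hz.2, e.right_inv hz.1⟩
  have hloc := local_ibp (V := e.target ∩ e.symm ⁻¹' U) (b := b e) (a := a e) (u := u)
    (fun z hz i j => by
      obtain ⟨h1, h2, h3⟩ := hVx z hz
      have := hb.smooth e _ h1 h2 i j
      rwa [h3] at this)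
    (fun z hz i k l => by
      obtain ⟨h1, h2, h3⟩ := hVx z hz
      have := hb.closed e _ h1 h2 i k l
      rwa [h3] at this)
    (fun z hz i => by
      obtain ⟨h1, h2, h3⟩ := hVx z hz
      have := ha.smooth e _ h1 h2 i
      rwa [h3] at this) hus hucs (hts.trans hKV)
  have hcompl : ∀ z, z ∉ e.target → (star (a e z) ⬝ᵥ (b e z).adjugate *ᵥ
      (fun j => dz j (fun y => (u y : ℂ)) z) + (u z : ℂ) * ((b e z).adjugate * Matrix.of fun j k =>
        dz j (fun y => conj (a e y k)) z).trace).re = 0 := by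
    intro z hz
    have hz' : z ∉ tsupport u := fun h => hz (hKt (hts h))
    have h1 : (fun y => (u y : ℂ)) =ᶠ[𝓝 z] fun _ => 0 := by
      filter_upwards [(isClosed_tsupport u).isOpen_compl.mem_nhds hz'] with y hy
      rw [image_eq_zero_of_notMem_tsupport hy]; simp
    have h3 : (fun j => dz j (fun y => (u y : ℂ)) z) = 0 := by
      funext j; rw [INT.dz_congr h1]; simp
    rw [h3, image_eq_zero_of_notMem_tsupport hz']
    simp
  rw [← setIntegral_eq_integral_of_forall_compl_eq_zero hcompl] at hloc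
  rw [← hloc]
  refine setIntegral_congr_fun e.open_target.measurableSet fun z hz => ?_
  have h1 : (fun y => (u y : ℂ)) =ᶠ[𝓝 z] fun y => (f (e.symm y) : ℂ) := by
    filter_upwards [hue z hz] with y hy; rw [hy]
  have h2 : gr f e z = fun j => dz j (fun y => (u y : ℂ)) z := by
    funext j; exact (INT.dz_congr h1).symm
  have h3 : u z = f (e.symm z) := (hue z hz).self_of_nhds
  unfold ibpD
  rw [h2, h3]
  by_cases hzf : e.symm z ∈ tsupport f
  · have h4 : H e z = Matrix.of fun j k => dz j (fun y => conj (a e y k)) z := by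
      ext j k
      have := ha.der e (e.symm z) ⟨he, e.map_target hz⟩ (hs hzf) j k
      rw [e.right_inv hz] at this
      exact this.symm
    rw [h4]
  · rw [image_eq_zero_of_notMem_tsupport hzf]
    simp

omit [IsManifold 𝓘(ℂ, Cm n) ω X] [T2Space X] [CompactSpace X] in
lemma gr_sum {ι : Type*} (s : Finset ι) {u : ι → X → ℝ} {e : Chart n X} {x : X} (h : At e x)
    (hu : ∀ i ∈ s, SmoothFn (n := n) (u i)) :
    gr (fun x => ∑ i ∈ s, u i x) e (e x) = ∑ i ∈ s, gr (u i) e (e x) := by
  funext j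
  unfold gr
  rw [Finset.sum_apply]
  have : (fun y => ((∑ i ∈ s, u i (e.symm y) : ℝ) : ℂ)) =
      fun y => ∑ i ∈ s, ((u i (e.symm y) : ℝ) : ℂ) := by funext y; push_cast; rfl
  rw [this, INT.dz_sum s fun i hi =>
    (INT.ofReal_contDiffAt (hu i hi e x h)).differentiableAt (by simp)]

/-- **integration by parts on `X`** -/
theorem gibp (hU : IsOpen U) (hb : ClosedOn U b) (ha : CovOn U a H)
    (hf : SmoothFn (n := n) f) (hs : tsupport f ⊆ U) : INT.intX (ibpD b a H f) = 0 := by
  set P := INT.part n X with hP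
  have hp : ∀ i, SmoothFn (n := n) (fun x => P.ρ i x * f x) := fun i =>
    INT.SmoothFn.mul (P.smooth i) hf
  have hps : ∀ i, tsupport (fun x => P.ρ i x * f x) ⊆ U := fun i =>
    INT.tsupport_mul_subset_right'.trans hs
  have h1 : ∀ e x, At e x → ibpD b a H f e (e x) =
      ∑ i, ibpD b a H (fun x => P.ρ i x * f x) e (e x) := by
    intro e x hx
    have hf' : f = fun x => ∑ i, P.ρ i x * f x := by
      funext x; rw [← Finset.sum_mul, P.sum, one_mul]
    have h2 : gr f e (e x) = ∑ i, gr (fun x => P.ρ i x * f x) e (e x) := by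
      conv_lhs => rw [hf']
      exact gr_sum _ hx fun i _ => hp i
    unfold ibpD
    rw [h2, Matrix.mulVec_sum, dotProduct_sum, ← Complex.re_sum, Finset.sum_add_distrib,
      ← Finset.sum_mul]
    congr 3
    rw [← Complex.ofReal_sum, ← Finset.sum_mul, P.sum, one_mul]
  rw [INT.intX_congr (D' := fun e z => ∑ i, ibpD b a H (fun x => P.ρ i x * f x) e z) h1,
    INT.intX_sum _ fun i _ => ibpD_cont hU hb ha (hp i) (hps i)]
  exact Finset.sum_eq_zero fun i _ => gibp_piece hU hb ha (hp i) (hps i) (P.mem i)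
    (INT.tsupport_mul_subset_left'.trans (P.supp i))

end

end Vale.Agent.P284.H395
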