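import Vale.Agent.P284.H395.StkS
import Vale.Agent.P284.H395.StkL
import Vale.Agent.P284.H395.StkF

/-!
# P284 (helper395), C-STK: the Kähler metrics `W_J = (C + 1) w + i∂∂̄ κ(u + J)`
-/

open scoped Manifold ContDiff ComplexOrder ComplexConjugate Topology
open MeasureTheory Set Filter Matrix

noncomputable section

namespace Vale.Agent.P284.H395

open Vale.Agent.P272.K

variable {n : ℕ} {X : Type} [TopologicalSpace X] [ChartedSpace (Cm n) X]

/-- truncated potential -/
def uJ (Z : Set X) (u : X → ℝ) (J : ℝ) : X → ℝ := ext0 Z fun x => kap (u x + J)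

/-- truncated metric -/
def WJ (w : Chart n X → Cm n → Matrix (Fin n) (Fin n) ℂ) (C₀ : ℝ) (Z : Set X) (u : X → ℝ) (J : ℝ)
    (e : Chart n X) (z : Cm n) : Matrix (Fin n) (Fin n) ℂ :=
  ((C₀ + 1 : ℝ) : ℂ) • w e z + cHess (fun y => uJ Z u J (e.symm y)) z

section
variable {w ρ : Chart n X → Cm n → Matrix (Fin n) (Fin n) ℂ} {Z : Set X} {s : ℕ} {C C₀ : ℝ}
  {u : X → ℝ}

lemma uJ_zero (hu : IsPot Z w ρ C u) (J : ℝ) : ∀ x ∈ Z, ∀ᶠ y in 𝓝 x, uJ Z u J y = 0 :=
  ext0_zero (A := -J) hu.lim fun x hx => kap_of_nonpos (by linarith)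

lemma uJ_smooth (hZ : IsClosed Z) (hu : IsPot Z w ρ C u) (J : ℝ) :
    SmoothFn (n := n) (uJ Z u J) := by
  refine smoothFn_of (fun e x h hx => ?_) (uJ_zero hu J)
  refine ContDiffAt.congr_of_eventuallyEq ?_ (ext0_near hZ h hx)
  exact contDiff_kap.contDiffAt.comp (e x) ((hu.smooth e x h hx).add contDiffAt_const)

lemma uJ_nonneg (J : ℝ) (x : X) : 0 ≤ uJ Z u J x := by
  by_cases hx : x ∈ Z
  · rw [uJ, ext0_of_mem hx]
  · rw [uJ, ext0_of_notMem hx]; exact kap_nonneg _

lemma uJ_le {M J : ℝ} (hM : ∀ x ∉ Z, u x ≤ M) (hJ : 0 ≤ M + J) (x : X) : uJ Z u J x ≤ M + J := by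
  by_cases hx : x ∈ Z
  · rw [uJ, ext0_of_mem hx]; exact hJ
  · rw [uJ, ext0_of_notMem hx]
    rcases le_total (u x + J) 0 with h | h
    · rw [kap_of_nonpos h]; exact hJ
    · exact (kap_le h).trans (by linarith [hM x hx])

/-- `u` is bounded above -/
lemma exists_sup [IsManifold 𝓘(ℂ, Cm n) ω X] [CompactSpace X] (hZ : IsClosed Z) (hu : IsPot Z w ρ C u) :
    ∃ M : ℝ, 0 ≤ M ∧ ∀ x ∉ Z, u x ≤ M := by
  have hc : Continuous (uJ Z u 0) := INT.SmoothFn.continuous (uJ_smooth hZ hu 0)
  obtain ⟨M, hM⟩ := (isCompact_univ (X := X)).exists_bound_of_continuousOn hc.continuousOn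
  refine ⟨max (M + 1) 0, le_max_right _ _, fun x hx => ?_⟩
  have h1 := hM x (mem_univ x)
  rw [uJ, ext0_of_notMem hx, Real.norm_eq_abs] at h1
  have h2 := (le_abs_self _).trans h1
  have h3 : u x - 1 ≤ kap (u x + 0) := by
    rw [add_zero]
    rcases le_total (u x) 1 with h | h
    · linarith [kap_nonneg (u x)]
    · have h4 : kap (u x) = kap 1 + (u x - 1) := by
        have h5 : kap (u x) = kap 1 + ∫ t in (1 : ℝ)..(u x), Real.smoothTransition t := by
          unfold kap
          rw [intervalIntegral.integral_add_adjacent_intervals] <;>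
            exact Real.smoothTransition.continuous.intervalIntegrable _ _
        have h6 : ∫ t in (1 : ℝ)..(u x), Real.smoothTransition t = ∫ t in (1 : ℝ)..(u x), 1 := by
          refine intervalIntegral.integral_congr fun t ht => ?_
          rw [Set.uIcc_of_le h] at ht
          exact Real.smoothTransition.one_of_one_le ht.1
        rw [h5, h6]; simp
      rw [h4]; linarith [kap_nonneg 1]
  exact le_trans (by linarith) (le_max_left _ _)

lemma smul_psd {A : Matrix (Fin n) (Fin n) ℂ} (h : A.PosSemidef) {r : ℝ} (hr : 0 ≤ r) :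
    ((r : ℂ) • A).PosSemidef := h.smul (by exact_mod_cast hr)

lemma deriv_kap_add (J t : ℝ) : deriv (fun t => kap (t + J)) t = Real.smoothTransition (t + J) := by
  rw [deriv_comp_add_const, deriv_kap]

lemma contDiff_kapJ (J : ℝ) : ContDiff ℝ ∞ fun t => kap (t + J) :=
  contDiff_kap.comp (contDiff_id.add contDiff_const)

lemma WJ_ge (hw : IsKahler w) (hZ : IsClosed Z) (hρ : IsRho Z s ρ) (hu : IsPot Z w ρ C u)
    (h0 : 0 ≤ C₀) (hC : C ≤ C₀) (J : ℝ) {e : Chart n X} {x : X} (h : At e x) :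
    (WJ w C₀ Z u J e (e x) - w e (e x)).PosSemidef ∧
    (x ∉ Z → 1 ≤ u x + J → (WJ w C₀ Z u J e (e x) - (w e (e x) + ρ e (e x))).PosSemidef) := by
  have hwp := (hw.posDef e x h).posSemidef
  by_cases hx : x ∈ Z
  · refine ⟨?_, fun h1 => absurd hx h1⟩
    have h1 : cHess (fun y => uJ Z u J (e.symm y)) (e x) = 0 := by
      have h2 : (fun y => uJ Z u J (e.symm y)) =ᶠ[𝓝 (e x)] fun _ => 0 := by
        have h3 := uJ_zero hu J x hx
        have h4 : ContinuousAt e.symm (e x) := e.continuousAt_symm (e.map_source h.2)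
        have h5 : ∀ᶠ y in 𝓝 (e.symm (e x)), uJ Z u J y = 0 := by rw [e.left_inv h.2]; exact h3
        exact h4.eventually h5
      rw [cHess_congr h2]
      exact INT.cHess_zero_of_notMem (by
        rw [notMem_tsupport_iff_eventuallyEq]; exact EventuallyEq.rfl)
    have : WJ w C₀ Z u J e (e x) - w e (e x) = (C₀ : ℂ) • w e (e x) := by
      unfold WJ
      rw [h1]; push_cast; rw [add_smul, one_smul]; abel
    rw [this]
    exact smul_psd hwp h0
  · set k1 : ℝ := Real.smoothTransition (u x + J) with hk1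
    set k2 : ℝ := deriv (deriv fun t => kap (t + J)) (u x) with hk2
    have hk1n : 0 ≤ k1 := Real.smoothTransition.nonneg _
    have hk1o : k1 ≤ 1 := Real.smoothTransition.le_one _
    have hk2n : 0 ≤ k2 := by
      have : deriv (fun t => kap (t + J)) = fun t => Real.smoothTransition (t + J) :=
        funext fun t => deriv_kap_add J t
      rw [hk2, this, deriv_comp_add_const]
      exact Real.smoothTransition.monotone.deriv_nonneg
    have hus := hu.smooth e x h hx
    have hch : cHess (fun y => uJ Z u J (e.symm y)) (e x) =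
        (k1 : ℂ) • cHess (fun y => u (e.symm y)) (e x) +
        (k2 : ℂ) • AMP.gm (fun y => u (e.symm y)) (fun y => u (e.symm y)) (e x) := by
      show cHess (fun y => ext0 Z (fun x => kap (u x + J)) (e.symm y)) (e x) = _
      rw [cHess_congr (ext0_near hZ h hx)]
      have h1 := AMP.cHess_comp_real (φ := fun t => kap (t + J)) (f := fun y => u (e.symm y))
        (z := e x) (((contDiff_kapJ J).contDiffAt).of_le (by norm_cast)) (hus.of_le (by norm_cast))
      rw [h1, e.left_inv h.2, deriv_kap_add]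
    have hmain : (WJ w C₀ Z u J e (e x) - w e (e x) - (k1 : ℂ) • ρ e (e x)).PosSemidef := by
      have e1 : WJ w C₀ Z u J e (e x) - w e (e x) - (k1 : ℂ) • ρ e (e x) =
          (((1 - k1) * C₀ : ℝ) : ℂ) • w e (e x) +
          ((k1 : ℂ) • (cHess (fun y => u (e.symm y)) (e x) + (C : ℂ) • w e (e x) - ρ e (e x)) +
          (((k1 * (C₀ - C)) : ℝ) : ℂ) • w e (e x)) +
          (k2 : ℂ) • AMP.gm (fun y => u (e.symm y)) (fun y => u (e.symm y)) (e x) := by
        unfold WJ
        rw [hch]
        ext i j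
        simp only [Matrix.sub_apply, Matrix.add_apply, Matrix.smul_apply, smul_eq_mul]
        push_cast
        ring
      rw [e1]
      exact ((smul_psd hwp (mul_nonneg (by linarith) h0)).add
        ((smul_psd (hu.ge e x h hx) hk1n).add
          (smul_psd hwp (mul_nonneg hk1n (by linarith))))).add
        (smul_psd (AMP.gm_self_posSemidef _ _) hk2n)
    constructor
    · have := hmain.add (smul_psd (hρ.psd e x h hx) hk1n)
      rwa [sub_add_cancel] at this
    · intro _ h1
      have : k1 = 1 := Real.smoothTransition.one_of_one_le h1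
      rw [this, Complex.ofReal_one, one_smul, sub_sub] at hmain
      exact hmain

lemma WJ_posDef (hw : IsKahler w) (hZ : IsClosed Z) (hρ : IsRho Z s ρ) (hu : IsPot Z w ρ C u)
    (h0 : 0 ≤ C₀) (hC : C ≤ C₀) (J : ℝ) {e : Chart n X} {x : X} (h : At e x) :
    (WJ w C₀ Z u J e (e x)).PosDef := by
  have h1 := (hw.posDef e x h).add_posSemidef (WJ_ge hw hZ hρ hu h0 hC J h).1
  rwa [add_sub_cancel] at h1

variable [IsManifold 𝓘(ℂ, Cm n) ω X]

lemma WJ_closed (hw : IsKahler w) (hZ : IsClosed Z) (hu : IsPot Z w ρ C u) (J : ℝ) :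
    INT.IsClosedForm (WJ w C₀ Z u J) :=
  ((INT.IsKahler.isClosedForm hw).smul _).add (INT.isClosedForm_cHess (uJ_smooth hZ hu J))

omit [IsManifold 𝓘(ℂ, Cm n) ω X] in
lemma closedOn_of [IsManifold 𝓘(ℂ, Cm n) ω X] {b : Chart n X → Cm n → Matrix (Fin n) (Fin n) ℂ}
    (hb : INT.IsClosedForm b) (U : Set X) : ClosedOn U b where
  smooth e x h _ := hb.smooth e x h
  change e e' x h h' _ := hb.form e e' x h h'
  closed e x h _ := hb.closed e x h

lemma covOn_gr {f : X → ℝ} (hf : SmoothFn (n := n) f) :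
    CovOn univ (gr f) fun (e : Chart n X) z => cHess (fun y => f (e.symm y)) z where
  smooth e x h _ i := INT.smooth_dz (INT.ofReal_contDiffAt (hf e x h))
  change e e' x h h' _ := gr_change h h' ((hf e' x h').differentiableAt (by simp))
  Hchange e e' x h h' _ := (INT.isClosedForm_cHess hf).form e e' x h h'
  der e x h _ j k := by
    have : (fun y => conj (gr f e y k)) = dzb k (fun y => (f (e.symm y) : ℂ)) := by
      funext y
      unfold gr
      rw [AMP.dzb_real_eq]
    rw [this]; rfl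

omit [IsManifold 𝓘(ℂ, Cm n) ω X] in
/-- densities built from a pairing -/
lemma dens_pair {U : Set X} {A : Chart n X → Cm n → Matrix (Fin n) (Fin n) ℂ}
    {a : Chart n X → Cm n → Cm n} {g : X → ℝ}
    (hA : ∀ e x, At e x → x ∈ U → ∀ i j, ContinuousAt (fun z => A e z i j) (e x))
    (hAc : ∀ e e' x, At e x → At e' x → x ∈ U → ∀ α β : Fin n → ℂ,
      star ((jacM e e' x)ᵀ *ᵥ α) ⬝ᵥ A e (e x) *ᵥ ((jacM e e' x)ᵀ *ᵥ β) =
        ((‖(jacM e e' x).det‖ ^ 2 : ℝ) : ℂ) * (star α ⬝ᵥ A e' (e' x) *ᵥ β))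
    (ha : ∀ e x, At e x → x ∈ U → ∀ i, ContinuousAt (fun z => a e z i) (e x))
    (hac : ∀ e e' x, At e x → At e' x → x ∈ U → a e (e x) = (jacM e e' x)ᵀ *ᵥ a e' (e' x))
    (hg : ∀ x ∈ U, ContinuousAt g x) (hg0 : ∀ x ∉ U, ∀ᶠ y in 𝓝 x, g y = 0) :
    INT.IsDensity fun (e : Chart n X) z => g (e.symm z) * (star (a e z) ⬝ᵥ A e z *ᵥ a e z).re where
  cont e x h := by
    have hs : ContinuousAt e.symm (e x) := e.continuousAt_symm (e.map_source h.2)
    by_cases hx : x ∈ U
    · refine ContinuousAt.mul ?_ (Complex.continuous_re.continuousAt.comp ?_)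
      · have : ContinuousAt g (e.symm (e x)) := by rw [e.left_inv h.2]; exact hg x hx
        exact this.comp hs
      · simp only [dotProduct, Matrix.mulVec, Pi.star_apply, RCLike.star_def]
        refine tendsto_finsetSum _ fun k _ => ContinuousAt.mul ?_
          (tendsto_finsetSum _ fun j _ => ?_)
        · exact Complex.continuous_conj.continuousAt.comp (ha e x h hx k)
        · exact (hA e x h hx k j).mul (ha e x h hx j)
    · have h1 : ∀ᶠ z in 𝓝 (e x), g (e.symm z) = 0 := by
        have : ∀ᶠ y in 𝓝 (e.symm (e x)), g y = 0 := by rw [e.left_inv h.2]; exact hg0 x hx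
        exact hs.eventually this
      refine continuousAt_const (y := (0 : ℝ)) |>.congr ?_
      filter_upwards [h1] with z hz
      rw [hz, zero_mul]
  change e e' x h h' := by
    show g (e.symm (e x)) * _ = g (e'.symm (e' x)) * _ * _
    rw [e.left_inv h.2, e'.left_inv h'.2]
    by_cases hx : x ∈ U
    · rw [hac e e' x h h' hx, hAc e e' x h h' hx, Complex.re_ofReal_mul]; ring
    · rw [(hg0 x hx).self_of_nhds]; simp

end

end Vale.Agent.P284.H395
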